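import Mathlib

/-!
Multigraphs given by an end map, cuts, spanning trees, tree decompositions and elimination
structures.
-/

open Finset

namespace Vale.Agent.P061.Treewidth

variable {V E : Type}

/-- The edges of `T` that have exactly one end in `S`. -/
def cutEdges (ends : E → V × V) (T : Finset E) (S : Set V) : Set E :=
  {e | e ∈ T ∧ ((ends e).1 ∈ S ↔ (ends e).2 ∉ S)}

/-- Every cut between a nonempty proper vertex subset and the rest has at least `k` edge copies. -/
def EdgeConnected [Fintype E] (ends : E → V × V) (k : ℕ) : Prop :=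
  ∀ S : Set V, S.Nonempty → S ≠ Set.univ → k ≤ (cutEdges ends Finset.univ S).ncard

/-- `T` consists of `|V| - 1` edge copies forming a tree on all of `V`. -/
def IsSpanningTree [Fintype V] (ends : E → V × V) (T : Finset E) : Prop :=
  T.card + 1 = Fintype.card V ∧
    (SimpleGraph.fromEdgeSet ((fun e => s((ends e).1, (ends e).2)) '' (T : Set E))).IsTree

/-- The multigraph has a tree decomposition with bags of at most `t + 1` vertices. -/
def TreewidthAtMost (ends : E → V × V) (t : ℕ) : Prop :=
  ∃ (ι : Type) (_ : Fintype ι) (A : SimpleGraph ι) (bag : ι → Finset V),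
    A.IsTree ∧ (∀ v, ∃ i, v ∈ bag i) ∧
    (∀ e, ∃ i, (ends e).1 ∈ bag i ∧ (ends e).2 ∈ bag i) ∧
    (∀ v, (A.induce {i | v ∈ bag i}).Preconnected) ∧
    ∀ i, (bag i).card ≤ t + 1

/-- An elimination order with upper neighbourhoods of size at most `t` forming cliques. -/
structure Elim (ends : E → V × V) (t : ℕ) where
  rk : V → ℕ
  up : V → Finset V
  rk_inj : Function.Injective rk
  up_rk : ∀ v, ∀ u ∈ up v, rk v < rk u
  up_card : ∀ v, (up v).card ≤ t
  edge_up : ∀ e, (ends e).2 ∈ up (ends e).1 ∨ (ends e).1 ∈ up (ends e).2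
  clique : ∀ v, ∀ u ∈ up v, ∀ w ∈ up v, rk u < rk w → w ∈ up u

namespace Elim

variable {ends : E → V × V} {t : ℕ} (el : Elim ends t)

/-- `el.Below x v`: `v` is reached from `x` along upper neighbours. -/
def Below (x v : V) : Prop := Relation.ReflTransGen (fun a b => b ∈ el.up a) x v

/-- The vertices below `v`. -/
def desc (v : V) : Set V := {x | el.Below x v}

theorem below_refl (x : V) : el.Below x x := Relation.ReflTransGen.refl

theorem below_trans {x y z : V} (h1 : el.Below x y) (h2 : el.Below y z) : el.Below x z :=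
  Relation.ReflTransGen.trans h1 h2

theorem below_up {x u : V} (h : u ∈ el.up x) : el.Below x u :=
  Relation.ReflTransGen.single h

theorem rk_le {x v : V} (h : el.Below x v) : el.rk x ≤ el.rk v := by
  induction h with
  | refl => exact le_rfl
  | tail _ h ih => exact ih.trans (el.up_rk _ _ h).le

theorem rk_lt {x v : V} (h : el.Below x v) (hne : x ≠ v) : el.rk x < el.rk v :=
  lt_of_le_of_ne (el.rk_le h) fun hh => hne (el.rk_inj hh)

theorem eq_of_rk_le {x v : V} (h : el.Below x v) (hr : el.rk v ≤ el.rk x) : x = v :=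
  el.rk_inj (le_antisymm (el.rk_le h) hr)

/-- The vertices above a given one form a chain. -/
theorem comparable {x u w : V} (hu : el.Below x u) (hw : el.Below x w) :
    el.Below u w ∨ el.Below w u := by
  classical
  suffices H : ∀ d : ℕ, ∀ x u w : V, el.rk u + el.rk w ≤ d + 2 * el.rk x →
      el.Below x u → el.Below x w → el.Below u w ∨ el.Below w u from
    H (el.rk u + el.rk w) x u w (by omega) hu hw
  intro d
  induction d using Nat.strong_induction_on with
  | _ d ih =>
    intro x u w hd hu hw
    rcases Relation.ReflTransGen.cases_head hu with rfl | ⟨u1, hu1, hu'⟩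
    · exact Or.inl hw
    rcases Relation.ReflTransGen.cases_head hw with rfl | ⟨w1, hw1, hw'⟩
    · exact Or.inr hu
    have h1 := el.up_rk _ _ hu1
    have h2 := el.up_rk _ _ hw1
    have h3 := el.rk_le hu'
    have h4 := el.rk_le hw'
    have key : ∀ y : V, el.rk x < el.rk y → el.Below y u → el.Below y w →
        el.Below u w ∨ el.Below w u := by
      intro y hy hyu hyw
      have h5 := el.rk_le hyu
      have h6 := el.rk_le hyw
      exact ih (el.rk u + el.rk w - 2 * el.rk y) (by omega) y u w (by omega) hyu hyw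
    rcases lt_trichotomy (el.rk u1) (el.rk w1) with h | h | h
    · exact key u1 h1 hu' (el.below_trans (el.below_up (el.clique _ _ hu1 _ hw1 h)) hw')
    · have := el.rk_inj h
      subst this
      exact key u1 h1 hu' hw'
    · exact key w1 h2 (el.below_trans (el.below_up (el.clique _ _ hw1 _ hu1 h)) hu') hw'

theorem below_of_rk {x u w : V} (hu : el.Below x u) (hw : el.Below x w)
    (h : el.rk u ≤ el.rk w) : el.Below u w := by
  rcases el.comparable hu hw with h' | h'
  · exact h'
  · rw [el.eq_of_rk_le h' h]
    exact el.below_refl _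

/-- An upper neighbour leaving the set below `v` is an upper neighbour of `v`. -/
theorem exit {x v y : V} (hx : el.Below x v) (hy : y ∈ el.up x) (hn : ¬ el.Below y v) :
    y ∈ el.up v := by
  induction hx using Relation.ReflTransGen.head_induction_on with
  | refl => exact hy
  | @head a c hac hcv ih =>
    rcases lt_trichotomy (el.rk c) (el.rk y) with h | h | h
    · exact ih (el.clique _ _ hac _ hy h)
    · exact absurd ((el.rk_inj h) ▸ hcv) hn
    · exact absurd (el.below_trans (el.below_up (el.clique _ _ hy _ hac h)) hcv) hn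

/-- The lower end of an edge. -/
def lo (e : E) : V :=
  if el.rk (ends e).1 < el.rk (ends e).2 then (ends e).1 else (ends e).2

/-- The upper end of an edge. -/
def hi (e : E) : V :=
  if el.rk (ends e).1 < el.rk (ends e).2 then (ends e).2 else (ends e).1

theorem hi_up (e : E) : el.hi e ∈ el.up (el.lo e) := by
  unfold lo hi
  rcases el.edge_up e with h | h
  · rw [if_pos (el.up_rk _ _ h), if_pos (el.up_rk _ _ h)]; exact h
  · rw [if_neg (el.up_rk _ _ h).le.not_gt, if_neg (el.up_rk _ _ h).le.not_gt]; exact h

theorem lo_hi_cases (e : E) :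
    (el.lo e = (ends e).1 ∧ el.hi e = (ends e).2) ∨
      (el.lo e = (ends e).2 ∧ el.hi e = (ends e).1) := by
  unfold lo hi
  split <;> simp

/-- The edge `e` joins two colours of `χ`. -/
def Crosses (χ : V → Bool) (e : E) : Prop := χ (el.lo e) ≠ χ (el.hi e)

theorem crosses_iff (χ : V → Bool) (e : E) :
    el.Crosses χ e ↔ χ (ends e).1 ≠ χ (ends e).2 := by
  rcases el.lo_hi_cases e with ⟨h1, h2⟩ | ⟨h1, h2⟩
  · rw [Crosses, h1, h2]
  · rw [Crosses, h1, h2]; exact ne_comm

theorem crosses_indicator (S : Set V) [DecidablePred (· ∈ S)] (e : E) :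
    el.Crosses (fun x => decide (x ∈ S)) e ↔ ((ends e).1 ∈ S ↔ (ends e).2 ∉ S) := by
  rw [el.crosses_iff]
  by_cases h1 : (ends e).1 ∈ S <;> by_cases h2 : (ends e).2 ∈ S <;> simp [h1, h2]

theorem hi_closedUp_or_below {e : E} {v : V} (h : el.lo e ∈ el.desc v) :
    el.hi e ∈ el.desc v ∨ el.hi e ∈ el.up v := by
  by_cases h' : el.hi e ∈ el.desc v
  · exact Or.inl h'
  · exact Or.inr (el.exit h (el.hi_up e) h')

theorem not_below_of_not_below {e : E} {v : V} (h : el.lo e ∉ el.desc v) :
    el.hi e ∉ el.desc v := fun h' => h (el.below_trans (el.below_up (el.hi_up e)) h')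

section Closed

variable [DecidableEq V]

/-- A vertex together with its upper neighbours. -/
def closedUp (v : V) : Finset V := insert v (el.up v)

theorem closedUp_card (v : V) : (el.closedUp v).card ≤ t + 1 :=
  (Finset.card_insert_le _ _).trans (Nat.succ_le_succ (el.up_card v))

theorem mem_closedUp {v x : V} : x ∈ el.closedUp v ↔ x = v ∨ x ∈ el.up v := by
  simp [closedUp]

end Closed

section Connected

variable [Fintype V] [Fintype E] {k : ℕ} (hk : 1 ≤ k) (hc : EdgeConnected ends k)
include hk hc

theorem desc_univ_of_up_empty {v : V} (h : el.up v = ∅) : el.desc v = Set.univ := by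
  classical
  by_contra hne
  have h1 := hc (el.desc v) ⟨v, el.below_refl v⟩ hne
  have h2 : (cutEdges ends Finset.univ (el.desc v)).Nonempty :=
    Set.nonempty_of_ncard_ne_zero (by omega)
  obtain ⟨e, -, he⟩ := h2
  have hlo : el.lo e ∈ el.desc v := by
    by_contra hlo
    have hhi := el.not_below_of_not_below hlo
    rcases el.lo_hi_cases e with ⟨a, b⟩ | ⟨a, b⟩ <;> rw [a] at hlo <;> rw [b] at hhi <;> tauto
  rcases el.hi_closedUp_or_below hlo with hhi | hhi
  · rcases el.lo_hi_cases e with ⟨a, b⟩ | ⟨a, b⟩ <;> rw [a] at hlo <;> rw [b] at hhi <;> tauto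
  · simp [h] at hhi

theorem exists_root [Nonempty V] : ∃ v₀ : V, el.up v₀ = ∅ ∧
    (∀ x, el.Below x v₀) ∧ ∀ v, v ≠ v₀ → (el.up v).Nonempty := by
  obtain ⟨v₀, -, hmax⟩ := Finset.exists_max_image Finset.univ el.rk
    (Finset.univ_nonempty (α := V))
  have h0 : el.up v₀ = ∅ := by
    rw [Finset.eq_empty_iff_forall_notMem]
    intro u hu
    exact (el.up_rk _ _ hu).not_ge (hmax u (Finset.mem_univ u))
  refine ⟨v₀, h0, fun x => ?_, fun v hv => ?_⟩
  · have := el.desc_univ_of_up_empty hk hc h0
    exact (Set.ext_iff.1 this x).2 trivial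
  · rw [Finset.nonempty_iff_ne_empty]
    intro h
    have := (Set.ext_iff.1 (el.desc_univ_of_up_empty hk hc h) v₀).2 trivial
    rcases Relation.ReflTransGen.cases_head this with h' | ⟨u, hu, -⟩
    · exact hv h'.symm
    · simp [h0] at hu

end Connected

end Elim

end Vale.Agent.P061.Treewidth
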