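import Vale.Agent.P061.Treewidth.Hierarchy

/-!
Bands of the elimination forest, uniqueness of colourings with small cut inside a band,
monochromaticity of classes avoiding the hole, and the span bound.
-/

open Finset

namespace Vale.Agent.P061.Treewidth.Elim

variable {V E : Type} {ends : E → V × V} {t : ℕ} [Fintype E] (el : Elim ends t)

/-- The hole of a band. -/
def hole : Option V → Set V
  | none => ∅
  | some b => el.desc b

/-- The hole of a band together with its upper neighbours. -/
def near : Option V → Set V
  | none => ∅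
  | some b => el.desc b ∪ (el.up b : Set V)

/-- The part below `v` outside the hole. -/
def band (v : V) (ob : Option V) : Set V := el.desc v \ el.hole ob

open Classical in
/-- The edges starting in `A` that cross `χ`. -/
noncomputable def crossIn (χ : V → Bool) (A : Set V) : Finset E :=
  Finset.univ.filter fun e => el.lo e ∈ A ∧ el.Crosses χ e

/-- The number of edges starting in `A` that cross `χ`. -/
noncomputable def cutIn (χ : V → Bool) (A : Set V) : ℕ := (el.crossIn χ A).card

theorem mem_crossIn {χ : V → Bool} {A : Set V} {e : E} :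
    e ∈ el.crossIn χ A ↔ el.lo e ∈ A ∧ el.Crosses χ e := by
  classical
  simp [crossIn]

theorem cutIn_mono (χ : V → Bool) {A A' : Set V} (h : A ⊆ A') :
    el.cutIn χ A ≤ el.cutIn χ A' := by
  refine Finset.card_le_card fun e he => ?_
  rw [mem_crossIn] at he ⊢
  exact ⟨h he.1, he.2⟩

theorem hole_subset_near (ob : Option V) : el.hole ob ⊆ el.near ob := by
  cases ob
  · exact subset_rfl
  · exact Set.subset_union_left

/-- The upper end of an edge starting in a band is in the band or next to its top. -/
theorem hi_band {v : V} {ob : Option V} {e : E} (h : el.lo e ∈ el.band v ob) :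
    el.hi e ∈ el.band v ob ∨ el.hi e ∈ el.up v := by
  rcases el.hi_closedUp_or_below h.1 with h' | h'
  · refine Or.inl ⟨h', fun hh => h.2 ?_⟩
    cases ob
    · exact hh.elim
    · exact el.below_trans (el.below_up (el.hi_up e)) hh
  · exact Or.inr h'

variable {el} {k : ℕ} {v₀ : V} (R : el.Rooted k v₀)
include R

/-- Two colourings with small cuts in a band that agree next to its top and next to the hole
agree on the band. -/
theorem Rooted.unique [DecidableEq V] {v : V} {ob : Option V} {χ ψ : V → Bool}
    (htop : ∀ x ∈ el.closedUp v, χ x = ψ x)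
    (hbot : ∀ b, ob = some b → ∀ x ∈ el.closedUp b, χ x = ψ x)
    (hsmall : el.cutIn χ (el.band v ob) + el.cutIn ψ (el.band v ob) < k) :
    ∀ x ∈ el.band v ob, χ x = ψ x := by
  classical
  set A := el.band v ob with hA
  set X : Set V := {x | x ∈ A ∧ χ x ≠ ψ x} with hX
  intro x₁ hx₁
  by_contra hne
  have hvX : v ∉ X := fun h => h.2 (htop v (by simp [closedUp]))
  have h1 := R.conn X ⟨x₁, hx₁, hne⟩ fun h => hvX ((Set.ext_iff.1 h v).2 trivial)
  have key : cutEdges ends Finset.univ X ⊆ ↑(el.crossIn χ A ∪ el.crossIn ψ A) := by
    intro e he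
    simp only [cutEdges, Set.mem_ofPred_eq, Finset.mem_univ, true_and] at he
    have hc : (el.lo e ∈ X ∧ el.hi e ∉ X) ∨ (el.hi e ∈ X ∧ el.lo e ∉ X) := by
      rcases el.lo_hi_cases e with ⟨h1, h2⟩ | ⟨h1, h2⟩ <;> rw [h1, h2] <;> tauto
    have hlo : el.lo e ∈ A ∧ (χ (el.lo e) ≠ ψ (el.lo e) ↔ ¬ χ (el.hi e) ≠ ψ (el.hi e)) := by
      rcases hc with ⟨⟨h1, h2⟩, h3⟩ | ⟨⟨h1, h2⟩, h3⟩
      · refine ⟨h1, ⟨fun _ h4 => ?_, fun _ => h2⟩⟩
        rcases el.hi_band h1 with h5 | h5
        · exact h3 ⟨h5, h4⟩
        · exact h4 (htop _ (by simp [closedUp, h5]))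
      · have hd : el.lo e ∈ el.desc v := el.below_trans (el.below_up (el.hi_up e)) h1.1
        have hA' : el.lo e ∈ A := by
          refine ⟨hd, fun hh => ?_⟩
          cases ob with
          | none => exact hh
          | some b =>
            exact h2 (hbot b rfl _ (by
              simp only [closedUp, Finset.mem_insert]
              exact Or.inr (el.exit hh (el.hi_up e) h1.2)))
        exact ⟨hA', ⟨fun h4 => absurd ⟨hA', h4⟩ h3, fun h4 => absurd h2 h4⟩⟩
    simp only [Finset.coe_union, Set.mem_union, Finset.mem_coe, mem_crossIn, Crosses]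
    refine (Classical.em (χ (el.lo e) = χ (el.hi e))).symm.imp (fun h => ⟨hlo.1, h⟩) fun h => ⟨hlo.1, ?_⟩
    intro h'
    have := hlo.2
    rw [h, h'] at this
    tauto
  have h2 := (Set.ncard_le_ncard key (Finset.finite_toSet _)).trans_eq (Set.ncard_coe_finset _)
  have h3 := Finset.card_union_le (el.crossIn χ A) (el.crossIn ψ A)
  simp only [cutIn] at hsmall
  omega

/-- Crossing is the same for two colourings agreeing on a band and next to its top. -/
theorem Rooted.crosses_congr [DecidableEq V] {v : V} {ob : Option V} {χ ψ : V → Bool}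
    (htop : ∀ x ∈ el.closedUp v, χ x = ψ x) (hband : ∀ x ∈ el.band v ob, χ x = ψ x)
    {e : E} (he : el.lo e ∈ el.band v ob) : el.Crosses χ e ↔ el.Crosses ψ e := by
  have h1 := hband _ he
  have h2 : χ (el.hi e) = ψ (el.hi e) := by
    rcases el.hi_band he with h | h
    · exact hband _ h
    · exact htop _ (by simp [closedUp, h])
  simp only [Crosses, h1, h2]

/-- A class that avoids the hole and its upper neighbours is monochromatic inside a band with
small cut. -/
theorem Rooted.mono {v : V} {ob : Option V} {χ : V → Bool}
    (hsmall : t * el.cutIn χ (el.band v ob) < k) :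
    ∀ m ≤ el.rk v, ∀ w, (∀ y ∈ el.near ob, el.head m y ≠ w) →
      ∀ x, el.head m x = w → (x ∈ el.desc v ∨ x = w) → χ x = χ w := by
  intro m
  induction m with
  | zero => intro _ w _ x hx _; rw [← hx]; rfl
  | succ m ih =>
    intro hm w hw x hx hxv
    rcases hxv with hxv | rfl
    swap; · rfl
    by_cases hr : el.rk (el.head m x) = m
    · set z := el.head m x with hz
      have hwz : w = el.par z := by
        rw [← hx, ← hr]
        exact el.head_succ_eq (by rw [hr])
      have hzv : el.Below z v := el.below_of_rk (el.head_below m x) hxv (by omega)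
      have hz0 : z ≠ v₀ := fun h => by
        have := R.rk_le_root v
        rw [h] at hr; omega
      have hwup : w ∈ el.up z := hwz ▸ R.par_up hz0
      have hrw : m < el.rk w := hr ▸ el.up_rk _ _ hwup
      have hz_near : ∀ y ∈ el.near ob, el.head m y ≠ z := by
        intro y hy h
        refine hw y hy ?_
        rw [hwz, ← hr]
        exact el.head_succ_eq (by rw [hr, h])
      have hw_near : ∀ y ∈ el.near ob, el.head m y ≠ w := by
        intro y hy h
        refine hw y hy ?_
        rw [el.head_succ_ne (by rw [h]; omega), h]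
      have hxz : χ x = χ z := ih (by omega) z hz_near x hz.symm (Or.inl hxv)
      by_contra hne
      rw [hxz] at hne
      have hsub : el.mergeBundle z ⊆ el.crossIn χ (el.band v ob) := by
        intro e he
        have hlo : el.lo e ∈ el.desc v := el.below_trans (R.lo_desc he) hzv
        have hcases := R.mem_mergeBundle he
        rw [hr, ← hwz] at hcases
        rw [mem_crossIn]
        refine ⟨⟨hlo, fun hh => ?_⟩, ?_⟩
        · have hh' := el.hole_subset_near ob hh
          rcases hcases with ⟨h, -⟩ | ⟨h, -⟩
          · exact hz_near _ hh' h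
          · exact hw_near _ hh' h
        · rcases hcases with ⟨h1, h2⟩ | ⟨h1, h2⟩
          · have e1 := ih (by omega) z hz_near _ h1 (Or.inl hlo)
            have e2 : χ (el.hi e) = χ w := by
              rcases el.hi_closedUp_or_below hlo with h' | h'
              · exact ih (by omega) w hw_near _ h2 (Or.inl h')
              · rw [el.head_fix (by have := el.up_rk _ _ h'; omega)] at h2
                rw [h2]
            simpa [Crosses, e1, e2] using hne
          · have e1 := ih (by omega) w hw_near _ h1 (Or.inl hlo)
            have e2 : χ (el.hi e) = χ z := by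
              have h3 := el.head_below m (el.hi e)
              rw [h2] at h3
              exact ih (by omega) z hz_near _ h2 (Or.inl (el.below_trans h3 hzv))
            simpa [Crosses, e1, e2] using Ne.symm hne
      have h4 := R.card_mergeBundle hz0
      have h5 := Finset.card_le_card hsub
      have h6 : t * (el.mergeBundle z).card ≤ t * el.cutIn χ (el.band v ob) :=
        Nat.mul_le_mul_left _ h5
      omega
    · have hx' : el.head m x = w := by rw [← hx, el.head_succ_ne hr]
      refine ih (by omega) w (fun y hy h => hw y hy ?_) x hx' (Or.inl hxv)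
      rw [el.head_succ_ne (by rw [h, ← hx']; exact hr), h]

omit R in
/-- Both classes merged at `z` meet the part below or next to `a`. -/
def OldOld (el : Elim ends t) (a z : V) : Prop :=
  (∃ y, (el.Below y a ∨ y ∈ el.up a) ∧ el.head (el.rk z) y = z) ∧
    ∃ y, (el.Below y a ∨ y ∈ el.up a) ∧ el.head (el.rk z) y = el.par z

theorem Rooted.oldOld_of_touch {a z : V} {e : E} (he : e ∈ el.mergeBundle z)
    (h : el.Below (el.lo e) a) : OldOld el a z := by
  have hhi : el.Below (el.hi e) a ∨ el.hi e ∈ el.up a := el.hi_closedUp_or_below h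
  rcases R.mem_mergeBundle he with ⟨h1, h2⟩ | ⟨h1, h2⟩
  · exact ⟨⟨_, Or.inl h, h1⟩, ⟨_, hhi, h2⟩⟩
  · exact ⟨⟨_, hhi, h2⟩, ⟨_, Or.inl h, h1⟩⟩

/-- At most `t` merges after `a` join two classes both meeting the part below or next to `a`. -/
theorem Rooted.oldOld_count [Fintype V] {a : V} (ha : a ≠ v₀) (M : Finset V)
    (hM : ∀ z ∈ M, z ≠ v₀ ∧ el.rk a < el.rk z ∧ OldOld el a z) : M.card ≤ t := by
  classical
  set W : Finset V := Finset.univ.filter fun y => el.Below y a ∨ y ∈ el.up a with hW
  have hrk := R.rk_lt_root ha
  suffices H : ∀ m, el.rk a + 1 ≤ m → m ≤ el.rk v₀ →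
      (W.image (el.head m)).card + (M.filter fun z => el.rk z < m).card ≤ t by
    have h1 := H _ hrk le_rfl
    have h2 : (M.filter fun z => el.rk z < el.rk v₀) = M :=
      Finset.filter_true_of_mem fun z hz => R.rk_lt_root (hM z hz).1
    rw [h2] at h1
    omega
  intro m hm
  induction hm with
  | refl =>
    intro _
    have h1 : (M.filter fun z => el.rk z < el.rk a + 1) = ∅ :=
      Finset.filter_eq_empty_iff.2 fun z hz => by have := (hM z hz).2.1; omega
    rw [h1, Finset.card_empty, Nat.add_zero]
    refine (Finset.card_le_card ?_).trans (el.up_card a)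
    intro x hx
    simp only [hW, Finset.mem_image, Finset.mem_filter, Finset.mem_univ, true_and] at hx
    obtain ⟨y, hy, rfl⟩ := hx
    exact R.head_succ_up ha hy
  | @step m hm ih =>
    intro hm'
    have ih := ih (by omega)
    have hsub : W.image (el.head (m + 1)) =
        (W.image (el.head m)).image
          (fun w => if el.rk w = m then el.best (el.head m) w else w) := by
      rw [Finset.image_image]
      exact Finset.image_congr fun x _ => by simp [head]
    show (W.image (el.head (m + 1))).card + (M.filter fun z => el.rk z < m + 1).card ≤ t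
    by_cases hz : ∃ z ∈ M, el.rk z = m
    · obtain ⟨z, hzM, hzm⟩ := hz
      obtain ⟨hz0, -, ⟨y, hy, hy'⟩, ⟨y', hy2, hy2'⟩⟩ := hM z hzM
      rw [hzm] at hy' hy2'
      have hzW : z ∈ W.image (el.head m) := Finset.mem_image.2 ⟨y, by simp [hW, hy], hy'⟩
      have hpW : el.par z ∈ W.image (el.head m) :=
        Finset.mem_image.2 ⟨y', by simp [hW, hy2], hy2'⟩
      have h1 : (W.image (el.head (m + 1))) ⊆ (W.image (el.head m)).erase z := by
        rw [hsub]
        intro w hw
        simp only [Finset.mem_image] at hw
        obtain ⟨u, ⟨q, hq, rfl⟩, rfl⟩ := hw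
        by_cases hu : el.rk (el.head m q) = m
        · have : el.head m q = z := el.rk_inj (hu.trans hzm.symm)
          rw [if_pos hu, this]
          have hp : el.best (el.head m) z = el.par z := by rw [par, hzm]
          rw [hp]
          exact Finset.mem_erase.2 ⟨R.par_ne hz0, hpW⟩
        · rw [if_neg hu]
          exact Finset.mem_erase.2 ⟨fun h => hu (by rw [h, hzm]), Finset.mem_image_of_mem _ hq⟩
      have h2 : (M.filter fun w => el.rk w < m + 1) ⊆ insert z (M.filter fun w => el.rk w < m) := by
        intro w hw
        simp only [Finset.mem_filter, Finset.mem_insert] at hw ⊢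
        by_cases hw' : el.rk w = m
        · exact Or.inl (el.rk_inj (hw'.trans hzm.symm))
        · exact Or.inr ⟨hw.1, by omega⟩
      have h3 := Finset.card_le_card h1
      rw [Finset.card_erase_of_mem hzW] at h3
      have h4 := (Finset.card_le_card h2).trans (Finset.card_insert_le _ _)
      have h5 : 0 < (W.image (el.head m)).card := Finset.card_pos.2 ⟨z, hzW⟩
      omega
    · have h1 : (W.image (el.head (m + 1))).card ≤ (W.image (el.head m)).card := by
        rw [hsub]; exact Finset.card_image_le
      have h2 : (M.filter fun w => el.rk w < m + 1) = (M.filter fun w => el.rk w < m) := by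
        refine Finset.filter_congr fun w hw => ⟨fun h => ?_, fun h => by omega⟩
        rcases Nat.lt_succ_iff_lt_or_eq.1 h with h' | h'
        · exact h'
        · exact absurd ⟨w, hw, h'⟩ hz
      rw [h2]
      omega

end Vale.Agent.P061.Treewidth.Elim
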