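import Vale.Agent.P061.Treewidth.Select

/-!
Counting the tree edges crossing a colouring through reset vertices.
-/

open Finset

namespace Vale.Agent.P061.Treewidth.Elim

variable {V E : Type} {ends : E → V × V} {t : ℕ} [Fintype E] (el : Elim ends t)

/-- The part below `a` outside the resets `Z` below `a`. -/
def rest (Z : Set V) (a : V) : Set V :=
  {x | el.Below x a ∧ ∀ z ∈ Z, el.Below z a → ¬ el.Below x z}

/-- The rest below `a` has a large cut. -/
def Heavy (k : ℕ) (χ : V → Bool) (Z : Set V) (a : V) : Prop :=
  k ≤ ratio t * el.cutIn χ (el.rest Z a)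

/-- `a` is where two resets of `Z` meet. -/
def Branch (Z : Set V) (a : V) : Prop :=
  ∃ z₁ ∈ Z, ∃ z₂ ∈ Z, el.Below z₁ a ∧ el.Below z₂ a ∧
    ∀ w, el.Below w a → w ≠ a → el.Below z₁ w → ¬ el.Below z₂ w

/-- The resets of rank below `m`. -/
def resets (k : ℕ) (χ : V → Bool) : ℕ → Set V
  | 0 => ∅
  | m + 1 => resets k χ m ∪
      {a | el.rk a = m ∧ (el.Heavy k χ (resets k χ m) a ∨ el.Branch (resets k χ m) a)}

/-- `a` is a reset. -/
def Reset (k : ℕ) (χ : V → Bool) (a : V) : Prop :=
  el.Heavy k χ (el.resets k χ (el.rk a)) a ∨ el.Branch (el.resets k χ (el.rk a)) a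

theorem mem_resets {k : ℕ} {χ : V → Bool} {z : V} {m : ℕ} :
    z ∈ el.resets k χ m ↔ el.rk z < m ∧ el.Reset k χ z := by
  induction m with
  | zero => simp [resets]
  | succ m ih =>
    simp only [resets, Set.mem_union, ih, Set.mem_ofPred_eq]
    constructor
    · rintro (⟨h, h'⟩ | ⟨h, h'⟩)
      · exact ⟨by omega, h'⟩
      · exact ⟨by omega, by unfold Reset; rwa [h]⟩
    · rintro ⟨h, h'⟩
      rcases Nat.lt_succ_iff_lt_or_eq.1 h with h1 | h1
      · exact Or.inl ⟨h1, h'⟩
      · refine Or.inr ⟨h1, ?_⟩
        unfold Reset at h'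
        rwa [h1] at h'

/-- Below a vertex that is no reset the band is the rest, with a single hole. -/
theorem exists_hole {k : ℕ} {χ : V → Bool} {v : V} (hv : ¬ el.Reset k χ v) :
    ∃ ob : Option V, (∀ b, ob = some b → el.Reset k χ b ∧ el.Below b v ∧ b ≠ v) ∧
      el.band v ob = el.rest (el.resets k χ (el.rk v)) v := by
  classical
  set Z := el.resets k χ (el.rk v) with hZ
  by_cases hne : ∃ z ∈ Z, el.Below z v
  swap
  · refine ⟨none, fun b hb => by simp at hb, ?_⟩
    push Not at hne
    ext x
    simp only [band, hole, desc, rest, Set.mem_sdiff, Set.mem_ofPred_eq, Set.mem_empty_iff_false,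
      not_false_iff, and_true]
    exact ⟨fun h => ⟨h, fun z hz hzv => absurd hzv (hne z hz)⟩, fun h => h.1⟩
  obtain ⟨z₀, hz₀, hz₀v⟩ := hne
  have hfin : {z : V | z ∈ Z ∧ el.Below z v}.Finite := by
    refine Set.Finite.of_finite_image ((Set.finite_Iic (el.rk v)).subset ?_) el.rk_inj.injOn
    rintro _ ⟨z, hz, rfl⟩
    exact el.rk_le hz.2
  obtain ⟨b, ⟨hb, hbv⟩, hmax⟩ :=
    hfin.exists_maximalFor el.rk _ ⟨z₀, hz₀, hz₀v⟩
  have hbr : el.rk b < el.rk v := (el.mem_resets.1 hb).1
  have hmax' : ∀ z ∈ Z, el.Below z v → el.rk z ≤ el.rk b := by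
    intro z hz hzv
    by_contra h
    have := hmax ⟨hz, hzv⟩ (by omega)
    omega
  have hall : ∀ z ∈ Z, el.Below z v → el.Below z b := by
    intro z hz hzv
    have hzr : el.rk z < el.rk v := (el.mem_resets.1 hz).1
    have hP : ∃ n, ∃ w, el.rk w = n ∧ el.Below w v ∧ el.Below z w ∧ el.Below b w :=
      ⟨_, v, rfl, el.below_refl v, hzv, hbv⟩
    obtain ⟨w, hwn, hwv, hzw, hbw⟩ := Nat.find_spec hP
    have hmin : ∀ w', el.Below w' v → el.Below z w' → el.Below b w' → el.rk w ≤ el.rk w' := by
      intro w' h1 h2 h3
      rw [hwn]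
      exact Nat.find_le ⟨w', rfl, h1, h2, h3⟩
    by_cases hwz : w = z
    · subst hwz
      rw [el.eq_of_rk_le hbw (hmax' w hz hzv)]
      exact el.below_refl _
    by_cases hwb : w = b
    · rwa [hwb] at hzw
    have hbranch : el.Branch (el.resets k χ (el.rk w)) w := by
      refine ⟨z, el.mem_resets.2 ⟨el.rk_lt hzw (Ne.symm hwz), (el.mem_resets.1 hz).2⟩, b,
        el.mem_resets.2 ⟨el.rk_lt hbw (Ne.symm hwb), (el.mem_resets.1 hb).2⟩, hzw, hbw, ?_⟩
      intro w' hw'w hne h1 h2
      have := hmin w' (el.below_trans hw'w hwv) h1 h2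
      have := el.rk_lt hw'w hne
      omega
    have hwv' : w ≠ v := fun h => hv (h ▸ Or.inr hbranch)
    have hwZ : w ∈ Z := el.mem_resets.2 ⟨el.rk_lt hwv hwv', Or.inr hbranch⟩
    have := hmax' w hwZ hwv
    have := el.rk_lt hbw (Ne.symm hwb)
    omega
  refine ⟨some b, ?_, ?_⟩
  · intro b' hb'
    cases hb'
    exact ⟨(el.mem_resets.1 hb).2, hbv, fun h => by rw [h] at hbr; omega⟩
  · ext x
    simp only [band, hole, desc, rest, Set.mem_sdiff, Set.mem_ofPred_eq]
    refine ⟨fun h => ⟨h.1, fun z hz hzv hxz => h.2 (el.below_trans hxz (hall z hz hzv))⟩,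
      fun h => ⟨h.1, h.2 b hb hbv⟩⟩

/-- The bound on crossing merges per reset. -/
def perReset (t : ℕ) : ℕ := t + traces t * (t + 1)

/-- The constant in the thinness bound. -/
def thinConst (t : ℕ) : ℕ := 2 * ratio t * (perReset t + 1)

variable {el} {k : ℕ} {v₀ : V} (R : el.Rooted k v₀) [Fintype V] [DecidableEq V]
include R

open Classical in
theorem Rooted.reset_card (χ : V → Bool) :
    k * (Finset.univ.filter fun a => el.Reset k χ a).card
      ≤ 2 * ratio t * (el.crossIn χ Set.univ).card := by
  set H : Finset V :=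
    Finset.univ.filter fun a => el.Heavy k χ (el.resets k χ (el.rk a)) a with hH
  have h1 : k * H.card ≤ ratio t * (el.crossIn χ Set.univ).card := by
    have hdisj : (H : Set V).PairwiseDisjoint
        fun a => el.crossIn χ (el.rest (el.resets k χ (el.rk a)) a) := by
      intro a ha b hb hab
      simp only [Function.onFun, Finset.disjoint_left, mem_crossIn, rest, Set.mem_ofPred_eq]
      rintro e ⟨⟨hea, ha'⟩, -⟩ ⟨⟨heb, hb'⟩, -⟩
      simp only [hH, Finset.coe_filter, Finset.mem_univ, true_and, Set.mem_ofPred_eq] at ha hb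
      rcases lt_trichotomy (el.rk a) (el.rk b) with h | h | h
      · exact hb' a (el.mem_resets.2 ⟨h, Or.inl ha⟩) (el.below_of_rk hea heb h.le) hea
      · exact hab (el.rk_inj h)
      · exact ha' b (el.mem_resets.2 ⟨h, Or.inl hb⟩) (el.below_of_rk heb hea h.le) heb
    calc k * H.card = H.card • k := by rw [smul_eq_mul, Nat.mul_comm]
      _ ≤ ∑ a ∈ H, ratio t * (el.crossIn χ (el.rest (el.resets k χ (el.rk a)) a)).card :=
        Finset.card_nsmul_le_sum _ _ _ fun a ha => by
          simp only [hH, Finset.mem_filter, Finset.mem_univ, true_and] at ha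
          exact ha
      _ ≤ _ := by
        rw [← Finset.mul_sum, ← Finset.card_biUnion hdisj]
        refine Nat.mul_le_mul_left _ (Finset.card_le_card ?_)
        intro e he
        simp only [Finset.mem_biUnion, mem_crossIn] at he ⊢
        obtain ⟨a, -, -, h⟩ := he
        exact ⟨trivial, h⟩
  set Z : Finset V := Finset.univ.filter fun a => el.Reset k χ a with hZ
  suffices h2 : Z.card ≤ 2 * H.card by
    have := Nat.mul_le_mul_left k h2
    have h3 : k * (2 * H.card) = 2 * (k * H.card) := by ring
    have h4 : 2 * ratio t * (el.crossIn χ Set.univ).card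
        = 2 * (ratio t * (el.crossIn χ Set.univ).card) := by ring
    omega
  set tops : ℕ → Finset V := fun m => Finset.univ.filter fun z => z ∈ el.resets k χ m ∧
    ∀ w ∈ el.resets k χ m, el.Below z w → w = z with htops
  have key : ∀ m : ℕ,
      ((Z \ H).filter fun a => el.rk a < m).card + (tops m).card
        ≤ (H.filter fun a => el.rk a < m).card := by
    intro m
    induction m with
    | zero => simp [htops, resets]
    | succ m ih =>
      by_cases ha : ∃ a, el.rk a = m ∧ el.Reset k χ a
      swap
      · have hmem : ∀ a, el.Reset k χ a → (el.rk a < m + 1 ↔ el.rk a < m) := fun a hR =>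
          ⟨fun h => (Nat.lt_succ_iff_lt_or_eq.1 h).resolve_right fun h' => ha ⟨a, h', hR⟩,
            fun h => by omega⟩
        have hres : el.resets k χ (m + 1) = el.resets k χ m := by
          ext a
          simp only [mem_resets]
          exact ⟨fun h => ⟨(hmem a h.2).1 h.1, h.2⟩, fun h => ⟨(hmem a h.2).2 h.1, h.2⟩⟩
        have e1 : tops (m + 1) = tops m := by simp only [htops, hres]
        have e2 : ((Z \ H).filter fun a => el.rk a < m + 1) = (Z \ H).filter fun a => el.rk a < m :=
          Finset.filter_congr fun a h => hmem a (by simp [hZ] at h; exact h.1)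
        have e3 : (H.filter fun a => el.rk a < m + 1) = H.filter fun a => el.rk a < m :=
          Finset.filter_congr fun a h => hmem a (Or.inl (by simpa [hH] using h))
        rw [e1, e2, e3]
        exact ih
      obtain ⟨a, ham, haR⟩ := ha
      have hins : ∀ S : Finset V, a ∈ S →
          (S.filter fun x => el.rk x < m + 1) = insert a (S.filter fun x => el.rk x < m) := by
        intro S haS
        ext x
        simp only [Finset.mem_filter, Finset.mem_insert]
        constructor
        · rintro ⟨h1, h2⟩
          rcases Nat.lt_succ_iff_lt_or_eq.1 h2 with h | h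
          · exact Or.inr ⟨h1, h⟩
          · exact Or.inl (el.rk_inj (h.trans ham.symm))
        · rintro (rfl | ⟨h1, h2⟩)
          · exact ⟨haS, by omega⟩
          · exact ⟨h1, by omega⟩
      have hout : ∀ S : Finset V, a ∉ S →
          (S.filter fun x => el.rk x < m + 1) = S.filter fun x => el.rk x < m := by
        intro S haS
        refine Finset.filter_congr fun x hx => ⟨fun h => ?_, fun h => by omega⟩
        rcases Nat.lt_succ_iff_lt_or_eq.1 h with h | h
        · exact h
        · exact absurd ((el.rk_inj (h.trans ham.symm)) ▸ hx) haS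
      have hnotin : ∀ S : Finset V, a ∉ S.filter fun x => el.rk x < m := fun S h => by
        have := (Finset.mem_filter.1 h).2; omega
      have htopsub : tops (m + 1) ⊆ insert a ((tops m).filter fun z => ¬ el.Below z a) := by
        intro z hz
        simp only [htops, Finset.mem_filter, Finset.mem_univ, true_and, mem_resets,
          Finset.mem_insert] at hz ⊢
        by_cases hza : z = a
        · exact Or.inl hza
        refine Or.inr ⟨⟨⟨?_, hz.1.2⟩, fun w hw hzw => hz.2 w ⟨by omega, hw.2⟩ hzw⟩, fun h => ?_⟩
        · rcases Nat.lt_succ_iff_lt_or_eq.1 hz.1.1 with h | h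
          · exact h
          · exact absurd (el.rk_inj (h.trans ham.symm)) hza
        · exact hza (hz.2 a ⟨by omega, haR⟩ h).symm
      have hc1 := (Finset.card_le_card htopsub).trans (Finset.card_insert_le _ _)
      by_cases haH : a ∈ H
      · rw [hout (Z \ H) (by simp [haH]), hins H haH, Finset.card_insert_of_notMem (hnotin _)]
        have := Finset.card_filter_le (tops m) fun z => ¬ el.Below z a
        omega
      have haZH : a ∈ Z \ H := by simp [hZ, haR, haH]
      rw [hins _ haZH, hout H haH, Finset.card_insert_of_notMem (hnotin _)]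
      have hbr : el.Branch (el.resets k χ m) a := by
        rcases haR with h | h
        · exact absurd (by simpa [hH] using h) haH
        · rwa [ham] at h
      obtain ⟨z₁, hz₁, z₂, hz₂, h1a, h2a, hbr⟩ := hbr
      have htop : ∀ z ∈ el.resets k χ m, el.Below z a →
          ∃ T ∈ tops m, el.Below z T ∧ el.Below T a ∧ T ≠ a := by
        intro z hz hza
        obtain ⟨T, hT, hTmax⟩ := Finset.exists_max_image
          (Finset.univ.filter fun w => w ∈ el.resets k χ m ∧ el.Below z w) el.rk
          ⟨z, by simp [hz, el.below_refl]⟩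
        simp only [Finset.mem_filter, Finset.mem_univ, true_and] at hT hTmax
        have hTr : el.rk T < m := (el.mem_resets.1 hT.1).1
        refine ⟨T, ?_, hT.2, el.below_of_rk hT.2 hza (by omega), fun h => by rw [h] at hTr; omega⟩
        simp only [htops, Finset.mem_filter, Finset.mem_univ, true_and]
        exact ⟨hT.1, fun w hw hTw =>
          (el.eq_of_rk_le hTw (hTmax w ⟨hw, el.below_trans hT.2 hTw⟩)).symm⟩
      obtain ⟨T₁, hT₁, hzT₁, hT₁a, hT₁ne⟩ := htop z₁ hz₁ h1a
      obtain ⟨T₂, hT₂, hzT₂, hT₂a, -⟩ := htop z₂ hz₂ h2a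
      have hne : T₁ ≠ T₂ := fun h => hbr T₁ hT₁a hT₁ne hzT₁ (h ▸ hzT₂)
      have hlt : ((tops m).filter fun z => ¬ el.Below z a).card + 2 ≤ (tops m).card := by
        have hsub : ((tops m).filter fun z => ¬ el.Below z a) ⊆ ((tops m).erase T₁).erase T₂ := by
          intro x hx
          simp only [Finset.mem_filter] at hx
          simp only [Finset.mem_erase]
          exact ⟨fun h => hx.2 (h ▸ hT₂a), fun h => hx.2 (h ▸ hT₁a), hx.1⟩
        have := Finset.card_le_card hsub
        rw [Finset.card_erase_of_mem (Finset.mem_erase.2 ⟨hne.symm, hT₂⟩),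
          Finset.card_erase_of_mem hT₁] at this
        have : 1 < (tops m).card := Finset.one_lt_card.2 ⟨T₁, hT₁, T₂, hT₂, hne⟩
        omega
      omega
  have h := key (el.rk v₀ + 1)
  rw [Finset.filter_true_of_mem fun a _ => Nat.lt_succ_of_le (R.rk_le_root a),
    Finset.filter_true_of_mem fun a _ => Nat.lt_succ_of_le (R.rk_le_root a)] at h
  have := Finset.card_le_card_sdiff_add_card (s := Z) (t := H)
  omega

omit [Fintype V] in
/-- A crossing merge either joins two classes next to the hole or has an alternative colouring. -/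
theorem Rooted.crossing_cases {v : V} (hv : v ≠ v₀) {ob : Option V} {χ : V → Bool} {e : E}
    (he : e ∈ el.mergeBundle v)
    (hgood : ∀ c, (c = v ∨ c = el.par v) →
      ¬ el.Witness k v c (sideEnd el v c) (el.trace χ v) e)
    (hbelow : ∀ b, ob = some b → ¬ el.Below v b)
    (hsmall : ratio t * el.cutIn χ (el.band v ob) < k) (hcross : el.Crosses χ e) :
    (∃ b, ob = some b ∧ OldOld el b v) ∨
      (el.lo e ∈ el.band v ob ∧ el.Alt k v (el.trace χ v) ob e) := by
  refine or_iff_not_imp_left.2 fun hold => ?_
  push Not at hold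
  have havoid : ∀ f ∈ el.mergeBundle v, el.lo f ∉ el.hole ob := by
    intro f hf h
    cases ob with
    | none => exact h
    | some b => exact hold b rfl (R.oldOld_of_touch hf h)
  refine ⟨⟨R.lo_desc he, havoid e he⟩, ?_⟩
  obtain ⟨c, hc, hnear⟩ : ∃ c, (c = v ∨ c = el.par v) ∧
      ∀ y ∈ el.near ob, el.head (el.rk v) y ≠ c := by
    cases ob with
    | none => exact ⟨v, Or.inl rfl, fun y hy => hy.elim⟩
    | some b =>
      by_contra hcon
      push Not at hcon
      obtain ⟨y, hy, hy'⟩ := hcon v (Or.inl rfl)
      obtain ⟨z, hz, hz'⟩ := hcon (el.par v) (Or.inr rfl)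
      exact hold b rfl ⟨⟨y, hy, hy'⟩, ⟨z, hz, hz'⟩⟩
  have hmono := R.mono (v := v) (ob := ob) (χ := χ)
    (lt_of_le_of_lt (Nat.mul_le_mul_right _ (le_ratio t)) hsmall) (el.rk v) le_rfl c hnear
  by_contra halt
  refine hgood c hc ⟨ob, χ, hbelow, havoid, hsmall, rfl, fun f hf => ?_, hcross, halt⟩
  have hlo := R.lo_desc hf
  unfold sideEnd
  split
  · next h => exact hmono _ h (Or.inl hlo)
  · next h =>
    have hhi : el.head (el.rk v) (el.hi f) = c := by
      rcases R.mem_mergeBundle hf with ⟨h1, h2⟩ | ⟨h1, h2⟩ <;> rcases hc with rfl | rfl <;>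
        first
        | exact h2
        | exact absurd h1 h
    refine hmono _ hhi ?_
    rcases el.hi_closedUp_or_below hlo with h' | h'
    · exact Or.inl h'
    · rw [el.head_fix (el.up_rk _ _ h').le] at hhi
      exact Or.inr hhi

open Classical in
theorem Rooted.thin (χ : V → Bool) (f : V → E) (hf : ∀ v, v ≠ v₀ → f v ∈ el.mergeBundle v)
    (hgood : ∀ v, v ≠ v₀ → ∀ c, (c = v ∨ c = el.par v) → ∀ χ' : V → Bool,
      ¬ el.Witness k v c (sideEnd el v c) (el.trace χ' v) (f v)) :
    k * ((Finset.univ.erase v₀).filter fun v => el.Crosses χ (f v)).card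
      ≤ thinConst t * (el.crossIn χ Set.univ).card := by
  set F := (Finset.univ.erase v₀).filter fun v => el.Crosses χ (f v) with hF
  set Z : Finset V := Finset.univ.filter fun a => el.Reset k χ a with hZ
  have hhole : ∀ v, ¬ el.Reset k χ v → ∃ ob : Option V,
      (∀ b, ob = some b → el.Reset k χ b ∧ el.Below b v ∧ b ≠ v) ∧
        ratio t * el.cutIn χ (el.band v ob) < k := by
    intro v hv
    obtain ⟨ob, h1, h2⟩ := el.exists_hole hv
    refine ⟨ob, h1, ?_⟩
    rw [h2]
    exact Nat.lt_of_not_le fun h => hv (Or.inl h)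
  have : Nonempty V := ⟨v₀⟩
  choose! hol hol1 hol2 using hhole
  have hv : ∀ v ∈ F, v ≠ v₀ ∧ el.Crosses χ (f v) := fun v h => by simpa [hF] using h
  have hQ : 16 ≤ ratio t := Nat.le_add_left _ _
  have hcases : ∀ v ∈ F, ¬ el.Reset k χ v →
      (∃ b, hol v = some b ∧ OldOld el b v) ∨
        (el.lo (f v) ∈ el.band v (hol v) ∧ el.Alt k v (el.trace χ v) (hol v) (f v)) := by
    intro v hvF hvR
    refine R.crossing_cases (hv v hvF).1 (hf v (hv v hvF).1)
      (fun c hc => hgood v (hv v hvF).1 c hc χ) (fun b hb h => ?_) (hol2 v hvR) (hv v hvF).2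
    obtain ⟨-, hbv, hne⟩ := hol1 v hvR b hb
    exact absurd (el.rk_le h) (not_le.2 (el.rk_lt hbv hne))
  have hnone : ∀ v ∈ F, ¬ el.Reset k χ v → ∃ b ∈ Z, hol v = some b := by
    intro v hvF hvR
    cases hb : hol v with
    | some b => exact ⟨b, by simp [hZ, (hol1 v hvR b hb).1], rfl⟩
    | none =>
      exfalso
      rcases hcases v hvF hvR with ⟨b, hb', -⟩ | ⟨hlo, ψ, hψ1, hψ2, hψ3⟩
      · rw [hb] at hb'; simp at hb'
      · have h := hol2 v hvR
        rw [hb] at hlo hψ2 h
        refine hψ3 ?_
        have htop := el.trace_eq_iff.1 hψ1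
        refine (R.crosses_congr htop (R.unique htop (by simp) ?_) hlo).2 (hv v hvF).2
        by_contra hcon
        push Not at hcon
        have := Nat.mul_le_mul_left (ratio t) hcon
        have := Nat.mul_le_mul_right k hQ
        simp only [Nat.mul_add] at *
        omega
  have hG : ∀ b ∈ Z,
      (F.filter fun v => ¬ el.Reset k χ v ∧ hol v = some b).card ≤ perReset t := by
    intro b _
    set G := F.filter fun v => ¬ el.Reset k χ v ∧ hol v = some b with hGdef
    have hGm : ∀ v ∈ G, v ∈ F ∧ ¬ el.Reset k χ v ∧ hol v = some b ∧ el.Below b v ∧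
        el.rk b < el.rk v := by
      intro v h
      simp only [hGdef, Finset.mem_filter] at h
      obtain ⟨h1, h2, h3⟩ := h
      obtain ⟨-, hbv, hne⟩ := hol1 v h2 b h3
      exact ⟨h1, h2, h3, hbv, el.rk_lt hbv hne⟩
    rcases G.eq_empty_or_nonempty with hGe | ⟨w, hw⟩
    · rw [hGe]; exact Nat.zero_le _
    have hb0 : b ≠ v₀ := fun h => by
      have := R.rk_le_root w
      have := (hGm w hw).2.2.2.2
      rw [h] at this
      omega
    have hold : (G.filter fun v => OldOld el b v).card ≤ t := R.oldOld_count hb0 _ fun z hz => by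
      simp only [Finset.mem_filter] at hz
      exact ⟨(hv z (hGm z hz.1).1).1, (hGm z hz.1).2.2.2.2, hz.2⟩
    set G' := G.filter fun v => ¬ OldOld el b v with hG'
    have halt : ∀ v ∈ G', el.lo (f v) ∈ el.band v (some b) ∧
        el.Alt k v (el.trace χ v) (some b) (f v) := by
      intro v hv'
      simp only [hG', Finset.mem_filter] at hv'
      obtain ⟨h1, h2, h3, -, -⟩ := hGm v hv'.1
      rcases hcases v h1 h2 with ⟨b', hb', hold'⟩ | h
      · rw [h3] at hb'
        cases hb'
        exact absurd hold' hv'.2
      · rwa [h3] at h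
    choose! hlo ψ hψ1 hψ2 hψ3 using halt
    have hG'card : G'.card ≤ traces t * (t + 1) := by
      refine le_trans ?_ (Nat.mul_le_mul_right (t + 1)
        (show (el.closedUp b).powerset.card ≤ traces t by
          rw [Finset.card_powerset]
          exact Nat.pow_le_pow_right Nat.two_pos (el.closedUp_card b)))
      rw [Nat.mul_comm]
      refine Finset.card_le_mul_card_image_of_maps_to (f := fun v => el.trace (ψ v) b)
        (fun v _ => by simp [trace, Finset.filter_subset]) _ fun π _ => ?_
      rcases (G'.filter fun v => el.trace (ψ v) b = π).eq_empty_or_nonempty with hM | hM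
      · rw [hM]; simp
      obtain ⟨u, hu, humin⟩ := Finset.exists_min_image _ el.rk hM
      set M := (G'.filter fun v => el.trace (ψ v) b = π).erase u with hMdef
      simp only [Finset.mem_filter] at hu humin
      have huG : u ∈ G := (Finset.mem_filter.1 hu.1).1
      obtain ⟨huF, huR, huh, hbu, hrbu⟩ := hGm u huG
      have hMcard : M.card ≤ t := by
        refine R.oldOld_count (hv u huF).1 _ fun v hvM => ?_
        simp only [hMdef, Finset.mem_erase, Finset.mem_filter] at hvM
        obtain ⟨hvu, hvG', hvπ⟩ := hvM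
        obtain ⟨hvF, hvR, hvh, hbv, hrbv⟩ := hGm v (Finset.mem_filter.1 hvG').1
        have hlt : el.rk u < el.rk v :=
          lt_of_le_of_ne (humin v ⟨hvG', hvπ⟩) fun h => hvu (el.rk_inj h).symm
        refine ⟨(hv v hvF).1, hlt, R.oldOld_of_touch (hf v (hv v hvF).1) ?_⟩
        by_contra hnot
        have huv : el.Below u v := el.below_of_rk hbu hbv hlt.le
        have hu_top := el.trace_eq_iff.1 (hψ1 u hu.1)
        set ψ' : V → Bool := fun x => if el.Below x u then ψ u x else χ x with hψ'
        have hup : ∀ x, el.Below x u ∨ x ∈ el.up u → ψ' x = ψ u x := by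
          intro x hx
          by_cases h : el.Below x u
          · simp [hψ', h]
          · simp [hψ', h, hu_top x (el.mem_closedUp.2 (Or.inr (hx.resolve_left h)))]
        have htop : ∀ x ∈ el.closedUp v, ψ' x = ψ v x := by
          intro x hx
          have hvx : el.Below v x := by
            rcases el.mem_closedUp.1 hx with rfl | h
            · exact el.below_refl _
            · exact el.below_up h
          have hxu : ¬ el.Below x u := fun h =>
            absurd (el.rk_le (el.below_trans hvx h)) (not_le.2 hlt)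
          simp [hψ', hxu, el.trace_eq_iff.1 (hψ1 v hvG') x hx]
        have hbot : ∀ b', some b = some b' → ∀ x ∈ el.closedUp b', ψ' x = ψ v x := by
          intro b' hb' x hx
          cases hb'
          have hxu : el.Below x u ∨ x ∈ el.up u := by
            rcases el.mem_closedUp.1 hx with rfl | h
            · exact Or.inl hbu
            · by_cases h' : el.Below x u
              · exact Or.inl h'
              · exact Or.inr (el.exit hbu h h')
          rw [hup x hxu]
          exact el.trace_eq_iff.1 (hu.2.trans hvπ.symm) x hx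
        have hsub : el.crossIn ψ' (el.band v (some b)) ⊆
            el.crossIn (ψ u) (el.band u (some b)) ∪ el.crossIn χ (el.band v (some b)) := by
          intro g hg
          obtain ⟨hg1, hg2⟩ := el.mem_crossIn.1 hg
          rw [Finset.mem_union]
          by_cases h : el.Below (el.lo g) u
          · refine Or.inl (el.mem_crossIn.2 ⟨⟨h, hg1.2⟩, ?_⟩)
            have e1 := hup _ (Or.inl h)
            have e2 := hup _ (el.hi_closedUp_or_below (v := u) h)
            simpa [Crosses, e1, e2] using hg2
          · refine Or.inr (el.mem_crossIn.2 ⟨hg1, ?_⟩)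
            have h' : ¬ el.Below (el.hi g) u := el.not_below_of_not_below h
            simpa [Crosses, hψ', h, h'] using hg2
        have hsum : el.cutIn ψ' (el.band v (some b)) + el.cutIn (ψ v) (el.band v (some b)) < k := by
          by_contra hcon
          push Not at hcon
          have a1 := Nat.mul_le_mul_left (ratio t) hcon
          have a2 := Nat.mul_le_mul_left (ratio t)
            ((Finset.card_le_card hsub).trans (Finset.card_union_le _ _))
          have a3 := Nat.mul_le_mul_right k hQ
          have a4 := hψ2 u hu.1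
          have a5 := hψ2 v hvG'
          have a6 := hol2 v hvR
          rw [hvh] at a6
          simp only [cutIn, Nat.mul_add] at *
          omega
        have hband := R.unique htop hbot hsum
        have hc := (R.crosses_congr htop hband (hlo v hvG')).not.2 (hψ3 v hvG')
        refine hc ?_
        have h' : ¬ el.Below (el.hi (f v)) u := el.not_below_of_not_below hnot
        simpa [Crosses, hψ', hnot, h'] using (hv v hvF).2
      have := Finset.card_erase_add_one (Finset.mem_filter.2 ⟨hu.1, hu.2⟩ :
        u ∈ G'.filter fun v => el.trace (ψ v) b = π)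
      rw [← hMdef] at this
      omega
    have := Finset.card_filter_add_card_filter_not (s := G) (fun v => OldOld el b v)
    rw [← hG'] at this
    unfold perReset
    omega
  have hsub : F ⊆ Z ∪ Z.biUnion fun b => F.filter fun v => ¬ el.Reset k χ v ∧ hol v = some b := by
    intro v hvF
    simp only [Finset.mem_union, Finset.mem_biUnion, Finset.mem_filter]
    by_cases hR : el.Reset k χ v
    · exact Or.inl (by simp [hZ, hR])
    · obtain ⟨b, hb, hb'⟩ := hnone v hvF hR
      exact Or.inr ⟨b, hb, hvF, hR, hb'⟩
  have hcard : F.card ≤ (perReset t + 1) * Z.card := by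
    refine (Finset.card_le_card hsub).trans ((Finset.card_union_le _ _).trans ?_)
    have := Finset.card_biUnion_le.trans (Finset.sum_le_card_nsmul _ _ _ hG)
    rw [smul_eq_mul, Nat.mul_comm] at this
    rw [Nat.add_mul, Nat.one_mul]
    omega
  calc k * F.card ≤ k * ((perReset t + 1) * Z.card) := Nat.mul_le_mul_left _ hcard
    _ = (perReset t + 1) * (k * Z.card) := by ring
    _ ≤ (perReset t + 1) * (2 * ratio t * (el.crossIn χ Set.univ).card) :=
      Nat.mul_le_mul_left _ (R.reset_card χ)
    _ = thinConst t * (el.crossIn χ Set.univ).card := by unfold thinConst; ring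

/-- In the presence of a rooted elimination order there is a thin spanning tree. -/
theorem Rooted.exists_thin :
    ∃ T : Finset E, IsSpanningTree ends T ∧ ∀ S : Set V,
      k * (cutEdges ends T S).ncard ≤ thinConst t * (cutEdges ends Finset.univ S).ncard := by
  classical
  rcases isEmpty_or_nonempty E with hE | hE
  · have hall : ∀ v, v = v₀ := fun v => by
      by_contra hv
      have := R.card_mergeBundle hv
      have := R.one_le
      rw [Finset.eq_empty_of_isEmpty (el.mergeBundle v), Finset.card_empty, Nat.mul_zero] at *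
      omega
    have hs : Finset.univ.erase v₀ = (∅ : Finset V) := by
      rw [Finset.eq_empty_iff_forall_notMem]
      intro v hv
      exact (Finset.mem_erase.1 hv).1 (hall v)
    refine ⟨∅, ⟨?_, ?_⟩, fun S => by simp [cutEdges]⟩
    · have := Finset.card_erase_add_one (Finset.mem_univ v₀)
      rw [hs, Finset.card_empty, Finset.card_univ] at this
      simpa using this
    · have : Subsingleton V := ⟨fun a b => (hall a).trans (hall b).symm⟩
      have : Nonempty V := ⟨v₀⟩
      exact SimpleGraph.IsTree.of_subsingleton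
  have hex : ∀ v, v ≠ v₀ → ∃ e ∈ el.mergeBundle v, ∀ c, (c = v ∨ c = el.par v) →
      ∀ χ : V → Bool, ¬ el.Witness k v c (sideEnd el v c) (el.trace χ v) e :=
    fun v hv => R.exists_good hv
  choose! f hf hgood using hex
  refine ⟨(Finset.univ.erase v₀).image f, R.spanningTree f hf, fun S => ?_⟩
  have h := R.thin (fun x => decide (x ∈ S)) f hf hgood
  have h1 : (cutEdges ends ((Finset.univ.erase v₀).image f) S).ncard
      ≤ ((Finset.univ.erase v₀).filter fun v => el.Crosses (fun x => decide (x ∈ S)) (f v)).card := by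
    refine le_trans (le_of_eq ?_) (Finset.card_image_le (f := f))
    rw [← Set.ncard_coe_finset]
    congr 1
    ext e
    simp only [cutEdges, Set.mem_ofPred_eq, Finset.coe_image, Finset.coe_filter, Set.mem_image,
      Finset.mem_image]
    constructor
    · rintro ⟨⟨v, hv, rfl⟩, he⟩
      exact ⟨v, ⟨hv, (el.crosses_indicator S _).2 he⟩, rfl⟩
    · rintro ⟨v, ⟨hv, he⟩, rfl⟩
      exact ⟨⟨v, hv, rfl⟩, (el.crosses_indicator S _).1 he⟩
  have h2 : (cutEdges ends Finset.univ S).ncard
      = (el.crossIn (fun x => decide (x ∈ S)) Set.univ).card := by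
    rw [← Set.ncard_coe_finset]
    congr 1
    ext e
    simp only [cutEdges, Set.mem_ofPred_eq, Finset.mem_univ, true_and, Finset.mem_coe,
      mem_crossIn, Set.mem_univ, el.crosses_indicator]
  rw [h2]
  exact (Nat.mul_le_mul_left _ h1).trans h

end Vale.Agent.P061.Treewidth.Elim
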