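import Vale.Agent.P061.Treewidth.Defs

/-!
A tree decomposition of width `t` yields an elimination order with upper neighbourhoods of size
at most `t` forming cliques.
-/

open Finset

namespace Vale.Agent.P061.Treewidth

variable {ι : Type} {A : SimpleGraph ι} (hA : A.IsTree)
include hA

/-- In a rooted tree a node has at most one neighbour closer to the root. -/
theorem parent_unique (ρ : ι) {i a b : ι} (ha : A.Adj a i) (hb : A.Adj b i)
    (ha' : A.dist ρ a + 1 = A.dist ρ i) (hb' : A.dist ρ b + 1 = A.dist ρ i) : a = b := by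
  obtain ⟨p, -, hp⟩ := hA.connected.exists_path_of_dist ρ a
  obtain ⟨q, -, hq⟩ := hA.connected.exists_path_of_dist ρ b
  have h1 := (p.concat ha).isPath_of_length_eq_dist (by rw [SimpleGraph.Walk.length_concat]; omega)
  have h2 := (q.concat hb).isPath_of_length_eq_dist (by rw [SimpleGraph.Walk.length_concat]; omega)
  have h3 := congrArg SimpleGraph.Walk.penultimate ((hA.existsUnique_path ρ i).unique h1 h2)
  simpa using h3

/-- Along a path, once the distance to the root increases it keeps increasing. -/
theorem dist_le_of_downward (ρ : ι) {a j : ι} (p : A.Walk a j) :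
    ∀ i, p.IsPath → A.Adj i a → i ∉ p.support → A.dist ρ a = A.dist ρ i + 1 →
      A.dist ρ a ≤ A.dist ρ j := by
  induction p with
  | nil => intro _ _ _ _ _; exact le_rfl
  | @cons a b j hab p ih =>
    intro i hp hia hi hd
    rw [SimpleGraph.Walk.cons_isPath_iff] at hp
    rw [SimpleGraph.Walk.support_cons, List.mem_cons, not_or] at hi
    rcases hA.dist_eq_dist_add_one_of_adj ρ hab with h | h
    · have := parent_unique hA ρ hab.symm hia h.symm hd.symm
      exact absurd (this ▸ p.start_mem_support) hi.2
    · have := ih a hp.1 hab hp.2 h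
      omega

/-- A connected node set contains the parent of each node that is not uniquely closest to the
root. -/
theorem parent_mem (ρ : ι) {X : Set ι} (hX : (A.induce X).Preconnected) {i j : ι} (hi : i ∈ X)
    (hj : j ∈ X) (hne : i ≠ j) (hd : A.dist ρ j ≤ A.dist ρ i) :
    ∃ a ∈ X, A.Adj a i ∧ A.dist ρ a + 1 = A.dist ρ i := by
  obtain ⟨p, hp⟩ := (hX ⟨i, hi⟩ ⟨j, hj⟩).exists_isPath
  cases p with
  | nil => exact absurd rfl hne
  | @cons _ b _ hib q =>
    have hadj : A.Adj i b.1 := hib
    rcases hA.dist_eq_dist_add_one_of_adj ρ hadj with h | h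
    · exact ⟨b.1, b.2, hadj.symm, h.symm⟩
    · rw [SimpleGraph.Walk.cons_isPath_iff] at hp
      have hq := SimpleGraph.Walk.IsPath.map (f := (SimpleGraph.Embedding.induce X).toHom)
        Subtype.val_injective hp.1
      have h1 := dist_le_of_downward hA ρ _ i hq hadj (by
        rw [SimpleGraph.Walk.support_map, List.mem_map]
        rintro ⟨x, hx, hxi⟩
        exact hp.2 ((show x = ⟨i, hi⟩ from Subtype.ext hxi) ▸ hx)) h
      change A.dist ρ b.1 ≤ A.dist ρ j at h1
      omega

omit hA in
/-- A loopless multigraph of treewidth at most `t` has an elimination order. -/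
theorem exists_elim {V E : Type} [Fintype V] {ends : E → V × V} {t : ℕ}
    (hloop : ∀ e, (ends e).1 ≠ (ends e).2) (htw : TreewidthAtMost ends t) :
    Nonempty (Elim ends t) := by
  classical
  obtain ⟨ι, _, A, bag, hA, hcover, hedge, hconn, hbag⟩ := htw
  have : Nonempty ι := hA.connected.nonempty
  obtain ⟨ρ⟩ := this
  have htop : ∀ v, ∃ i, v ∈ bag i ∧ ∀ j, v ∈ bag j → A.dist ρ i ≤ A.dist ρ j := by
    intro v
    obtain ⟨i, hi, hmin⟩ := Finset.exists_min_image (Finset.univ.filter fun i => v ∈ bag i)
      (A.dist ρ) (by obtain ⟨i, hi⟩ := hcover v; exact ⟨i, by simp [hi]⟩)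
    exact ⟨i, by simpa using hi, fun j hj => hmin j (by simp [hj])⟩
  choose top htop1 htop2 using htop
  -- a later top node lies in every set reaching below it
  have key : ∀ (n : ℕ) (x y : V) (i : ι), A.dist ρ i = n → x ∈ bag i → y ∈ bag i →
      A.dist ρ (top y) ≤ A.dist ρ (top x) → y ∈ bag (top x) := by
    intro n
    induction n using Nat.strong_induction_on with
    | _ n ih =>
      intro x y i hn hx hy hd
      by_cases hix : i = top x
      · rwa [hix] at hy
      obtain ⟨a, ha, hai, had⟩ := parent_mem hA ρ (X := {i | x ∈ bag i}) (hconn x) hx (htop1 x)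
        hix (htop2 x i hx)
      have hiy : i ≠ top y := by
        intro h
        have := htop2 x a ha
        rw [h] at had
        omega
      obtain ⟨b, hb, hbi, hbd⟩ := parent_mem hA ρ (X := {i | y ∈ bag i}) (hconn y) hy (htop1 y)
        hiy (htop2 y i hy)
      have hab := parent_unique hA ρ hai hbi had hbd
      exact ih (A.dist ρ a) (by omega) x y a rfl ha (hab ▸ hb) hd
  set D := ∑ i, A.dist ρ i with hD
  have hle : ∀ i, A.dist ρ i ≤ D := fun i =>
    Finset.single_le_sum (f := fun i => A.dist ρ i) (fun _ _ => Nat.zero_le _) (Finset.mem_univ i)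
  set N := Fintype.card V with hN
  let num : V ≃ Fin N := Fintype.equivFin V
  set rk : V → ℕ := fun v => (D - A.dist ρ (top v)) * N + (num v).val with hrk
  have hlex : ∀ u w, rk u < rk w → A.dist ρ (top w) ≤ A.dist ρ (top u) := by
    intro u w h
    by_contra hcon
    push Not at hcon
    have h1 : D - A.dist ρ (top w) + 1 ≤ D - A.dist ρ (top u) := by
      have := hle (top w)
      omega
    have h2 := Nat.mul_le_mul_right N h1
    have := (num w).isLt
    simp only [hrk, Nat.add_mul, Nat.one_mul] at h h2
    omega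
  have hinj : Function.Injective rk := by
    intro u w h
    simp only [hrk] at h
    have h1 := congrArg (· % N) h
    simp only [Nat.mul_add_mod_self_right, Nat.mod_eq_of_lt (num u).isLt,
      Nat.mod_eq_of_lt (num w).isLt] at h1
    exact num.injective (Fin.ext h1)
  refine ⟨⟨rk, fun v => (bag (top v)).filter fun u => rk v < rk u, hinj,
    fun v u hu => (Finset.mem_filter.1 hu).2, fun v => ?_, fun e => ?_, ?_⟩⟩
  · refine Nat.le_of_lt_succ ((Finset.card_lt_card ?_).trans_le (hbag (top v)))
    exact Finset.filter_ssubset.2 ⟨v, htop1 v, lt_irrefl _⟩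
  · obtain ⟨i, h1, h2⟩ := hedge e
    rcases lt_trichotomy (rk (ends e).1) (rk (ends e).2) with h | h | h
    · exact Or.inl (Finset.mem_filter.2 ⟨key _ _ _ i rfl h1 h2 (hlex _ _ h), h⟩)
    · exact absurd (hinj h) (hloop e)
    · exact Or.inr (Finset.mem_filter.2 ⟨key _ _ _ i rfl h2 h1 (hlex _ _ h), h⟩)
  · intro v u hu w hw h
    exact Finset.mem_filter.2 ⟨key _ u w (top v) rfl (Finset.mem_filter.1 hu).1
      (Finset.mem_filter.1 hw).1 (hlex _ _ h), h⟩

end Vale.Agent.P061.Treewidth
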