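import Vale.Agent.P061.Treewidth.Defs

/-!
Bottom-up merging along an elimination order: each vertex, when eliminated, hands its class to
the upper neighbour whose class receives most edges, and every merge has a bundle of at least
`k / t` edges.
-/

open Finset

namespace Vale.Agent.P061.Treewidth.Elim

variable {V E : Type} {ends : E → V × V} {t : ℕ} [Fintype E] (el : Elim ends t)

open Classical in
/-- The edges between the classes with heads `v` and `b` of the labelling `h`. -/
noncomputable def bundle (ends : E → V × V) (h : V → V) (v b : V) : Finset E :=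
  Finset.univ.filter fun e =>
    (h (ends e).1 = v ∧ h (ends e).2 = b) ∨ (h (ends e).1 = b ∧ h (ends e).2 = v)

/-- An upper neighbour of `v` whose class receives most edges from the class of `v`. -/
noncomputable def best (h : V → V) (v : V) : V :=
  if hne : (el.up v).Nonempty then
    Classical.choose
      (Finset.exists_max_image (el.up v) (fun b => (bundle ends h v b).card) hne)
  else v

theorem best_cases (h : V → V) (v : V) : el.best h v ∈ el.up v ∨ el.best h v = v := by
  unfold best
  split
  · next hne =>
    exact Or.inl (Classical.choose_spec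
      (Finset.exists_max_image (el.up v) (fun b => (bundle ends h v b).card) hne)).1
  · exact Or.inr rfl

theorem best_mem (h : V → V) {v : V} (hne : (el.up v).Nonempty) : el.best h v ∈ el.up v := by
  unfold best
  rw [dif_pos hne]
  exact (Classical.choose_spec
    (Finset.exists_max_image (el.up v) (fun b => (bundle ends h v b).card) hne)).1

theorem best_max (h : V → V) {v b : V} (hb : b ∈ el.up v) :
    (bundle ends h v b).card ≤ (bundle ends h v (el.best h v)).card := by
  unfold best
  rw [dif_pos ⟨b, hb⟩]
  exact (Classical.choose_spec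
    (Finset.exists_max_image (el.up v) (fun b => (bundle ends h v b).card) ⟨b, hb⟩)).2 b hb

/-- The head of the class of `x` when all vertices of rank below `m` are eliminated. -/
noncomputable def head : ℕ → V → V
  | 0, x => x
  | m + 1, x => if el.rk (head m x) = m then el.best (head m) (head m x) else head m x

/-- The parent of `v`. -/
noncomputable def par (v : V) : V := el.best (el.head (el.rk v)) v

/-- The bundle of edges along which `v` is merged into its parent. -/
noncomputable def mergeBundle (v : V) : Finset E :=
  bundle ends (el.head (el.rk v)) v (el.par v)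

theorem head_succ_ne {m : ℕ} {x : V} (h : el.rk (el.head m x) ≠ m) :
    el.head (m + 1) x = el.head m x := by
  rw [head, if_neg h]

theorem head_succ_eq {v x : V} (h : el.head (el.rk v) x = v) :
    el.head (el.rk v + 1) x = el.par v := by
  rw [head, if_pos (by rw [h]), h]
  rfl

theorem head_below (m : ℕ) (x : V) : el.Below x (el.head m x) := by
  induction m with
  | zero => exact el.below_refl x
  | succ m ih =>
    rw [head]
    split
    · rcases el.best_cases (el.head m) (el.head m x) with h | h
      · exact el.below_trans ih (el.below_up h)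
      · rwa [h]
    · exact ih

theorem head_fix {m : ℕ} {x : V} (h : m ≤ el.rk x) : el.head m x = x := by
  induction m with
  | zero => rfl
  | succ m ih => rw [el.head_succ_ne (by rw [ih (by omega)]; omega), ih (by omega)]

theorem head_self (v : V) : el.head (el.rk v) v = v := el.head_fix le_rfl

theorem head_eq_mono {m m' : ℕ} (hm : m ≤ m') {x y : V} (h : el.head m x = el.head m y) :
    el.head m' x = el.head m' y := by
  induction hm with
  | refl => exact h
  | step _ ih => rw [head, head, ih]

/-- While `a` is not yet eliminated, classes of vertices below `a` have heads below `a` or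
upper neighbours of `a`. -/
theorem head_exit {a y : V} (hy : el.Below y a) :
    ∀ m ≤ el.rk a, el.Below (el.head m y) a ∨ el.head m y ∈ el.up a := by
  intro m
  induction m with
  | zero => exact fun _ => Or.inl hy
  | succ m ih =>
    intro hm
    by_cases hr : el.rk (el.head m y) = m
    · rw [head, if_pos hr]
      rcases ih (by omega) with h | h
      · rcases el.best_cases (el.head m) (el.head m y) with h' | h'
        · by_cases h'' : el.Below (el.best (el.head m) (el.head m y)) a
          · exact Or.inl h''
          · exact Or.inr (el.exit h h' h'')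
        · rw [h']; exact Or.inl h
      · have := el.up_rk _ _ h
        omega
    · rw [el.head_succ_ne hr]
      exact ih (by omega)

/-- Standing facts about the root of a connected instance. -/
structure Rooted (k : ℕ) (v₀ : V) : Prop where
  one_le : 1 ≤ k
  conn : EdgeConnected ends k
  up_root : el.up v₀ = ∅
  below_root : ∀ x, el.Below x v₀
  up_ne : ∀ v, v ≠ v₀ → (el.up v).Nonempty

variable {el} {k : ℕ} {v₀ : V} (R : el.Rooted k v₀)
include R

theorem Rooted.par_up {v : V} (hv : v ≠ v₀) : el.par v ∈ el.up v :=
  el.best_mem _ (R.up_ne v hv)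

theorem Rooted.rk_le_root (v : V) : el.rk v ≤ el.rk v₀ := el.rk_le (R.below_root v)

theorem Rooted.rk_lt_root {v : V} (hv : v ≠ v₀) : el.rk v < el.rk v₀ :=
  el.rk_lt (R.below_root v) hv

theorem Rooted.rk_head_ge {m : ℕ} (hm : m ≤ el.rk v₀) (x : V) : m ≤ el.rk (el.head m x) := by
  induction m with
  | zero => exact Nat.zero_le _
  | succ m ih =>
    have h := ih (by omega)
    by_cases hr : el.rk (el.head m x) = m
    · have hv : el.head m x ≠ v₀ := fun hh => by rw [hh] at hr; omega
      rw [head, if_pos hr]
      have := el.up_rk _ _ (el.best_mem (el.head m) (R.up_ne _ hv))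
      omega
    · rw [el.head_succ_ne hr]
      omega

theorem Rooted.head_root (x : V) : el.head (el.rk v₀) x = v₀ :=
  el.eq_of_rk_le (R.below_root _) (R.rk_head_ge le_rfl x)

theorem Rooted.head_closedUp {a y : V} (hy : el.Below y a) :
    el.head (el.rk a) y = a ∨ el.head (el.rk a) y ∈ el.up a := by
  rcases el.head_exit hy _ le_rfl with h | h
  · exact Or.inl (el.eq_of_rk_le h (R.rk_head_ge (R.rk_le_root a) y))
  · exact Or.inr h

/-- Just after `a` is eliminated, everything in or next to the part below `a` is in a class
headed by an upper neighbour of `a`. -/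
theorem Rooted.head_succ_up {a y : V} (ha : a ≠ v₀) (hy : el.Below y a ∨ y ∈ el.up a) :
    el.head (el.rk a + 1) y ∈ el.up a := by
  have h : el.head (el.rk a) y = a ∨ el.head (el.rk a) y ∈ el.up a := by
    rcases hy with hy | hy
    · exact R.head_closedUp hy
    · exact Or.inr (by rwa [el.head_fix (el.up_rk _ _ hy).le])
  rcases h with h | h
  · rw [el.head_succ_eq h]
    exact R.par_up ha
  · rw [el.head_succ_ne (by have := el.up_rk _ _ h; omega)]
    exact h

theorem Rooted.head_par {v : V} (hv : v ≠ v₀) : el.head (el.rk v) (el.par v) = el.par v :=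
  el.head_fix (el.up_rk _ _ (R.par_up hv)).le

theorem Rooted.par_ne {v : V} (hv : v ≠ v₀) : el.par v ≠ v := fun h =>
  absurd (el.up_rk _ _ (R.par_up hv)) (by rw [h]; exact lt_irrefl _)

theorem Rooted.mem_mergeBundle {v : V} {e : E} (he : e ∈ el.mergeBundle v) :
    (el.head (el.rk v) (el.lo e) = v ∧ el.head (el.rk v) (el.hi e) = el.par v) ∨
      (el.head (el.rk v) (el.lo e) = el.par v ∧ el.head (el.rk v) (el.hi e) = v) := by
  simp only [mergeBundle, bundle, Finset.mem_filter, Finset.mem_univ, true_and] at he
  rcases el.lo_hi_cases e with ⟨h1, h2⟩ | ⟨h1, h2⟩ <;> rw [h1, h2] <;> tauto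

/-- A bundle edge of `v` starts below `v`. -/
theorem Rooted.lo_desc {v : V} {e : E} (he : e ∈ el.mergeBundle v) : el.lo e ∈ el.desc v := by
  rcases R.mem_mergeBundle he with ⟨h, -⟩ | ⟨-, h⟩
  · have := el.head_below (el.rk v) (el.lo e)
    rwa [h] at this
  · have := el.head_below (el.rk v) (el.hi e)
    rw [h] at this
    exact el.below_trans (el.below_up (el.hi_up e)) this

theorem Rooted.card_mergeBundle {v : V} (hv : v ≠ v₀) :
    k ≤ t * (el.mergeBundle v).card := by
  classical
  have hp := R.par_up hv
  set S : Set V := {x | el.head (el.rk v) x = v} with hS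
  have h1 := R.conn S ⟨v, el.head_self v⟩ (by
    intro h
    have := (Set.ext_iff.1 h (el.par v)).2 trivial
    exact R.par_ne hv ((R.head_par hv).symm.trans this))
  refine h1.trans ?_
  have key : cutEdges ends Finset.univ S ⊆
      ↑((el.up v).biUnion fun b => bundle ends (el.head (el.rk v)) v b) := by
    intro e he
    simp only [cutEdges, hS, Set.mem_ofPred_eq, Finset.mem_univ, true_and] at he
    have : el.lo e ∈ el.desc v ∧
        ((el.head (el.rk v) (el.lo e) = v ∧ el.head (el.rk v) (el.hi e) ≠ v) ∨
          (el.head (el.rk v) (el.hi e) = v ∧ el.head (el.rk v) (el.lo e) ≠ v)) := by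
      have hc : (el.head (el.rk v) (el.lo e) = v ∧ el.head (el.rk v) (el.hi e) ≠ v) ∨
          (el.head (el.rk v) (el.hi e) = v ∧ el.head (el.rk v) (el.lo e) ≠ v) := by
        rcases el.lo_hi_cases e with ⟨h1, h2⟩ | ⟨h1, h2⟩ <;> rw [h1, h2] <;> tauto
      refine ⟨?_, hc⟩
      rcases hc with ⟨h, -⟩ | ⟨h, -⟩
      · have := el.head_below (el.rk v) (el.lo e); rwa [h] at this
      · have := el.head_below (el.rk v) (el.hi e); rw [h] at this
        exact el.below_trans (el.below_up (el.hi_up e)) this
    obtain ⟨hlo, hc⟩ := this
    obtain ⟨b, hb, heb⟩ : ∃ b ∈ el.up v,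
        (el.head (el.rk v) (el.lo e) = v ∧ el.head (el.rk v) (el.hi e) = b) ∨
          (el.head (el.rk v) (el.lo e) = b ∧ el.head (el.rk v) (el.hi e) = v) := by
      rcases hc with ⟨h, hne⟩ | ⟨h, hne⟩
      · refine ⟨_, ?_, Or.inl ⟨h, rfl⟩⟩
        rcases el.hi_closedUp_or_below hlo with h' | h'
        · exact (R.head_closedUp h').resolve_left hne
        · rwa [el.head_fix (el.up_rk _ _ h').le]
      · exact ⟨_, (R.head_closedUp hlo).resolve_left hne, Or.inr ⟨rfl, h⟩⟩
    simp only [Finset.coe_biUnion, Set.mem_iUnion, Finset.mem_coe, bundle, Finset.mem_filter,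
      Finset.mem_univ, true_and]
    refine ⟨b, hb, ?_⟩
    rcases el.lo_hi_cases e with ⟨h1, h2⟩ | ⟨h1, h2⟩ <;> rw [h1, h2] at heb <;> tauto
  refine (Set.ncard_le_ncard key (Finset.finite_toSet _)).trans ?_
  rw [Set.ncard_coe_finset]
  refine Finset.card_biUnion_le.trans ?_
  refine (Finset.sum_le_card_nsmul _ _ _ fun b hb => el.best_max _ hb).trans ?_
  rw [smul_eq_mul]
  exact Nat.mul_le_mul_right _ (el.up_card v)

theorem Rooted.mergeBundle_disjoint {v w : V} (hv : v ≠ v₀) (hw : w ≠ v₀) {e : E}
    (he : e ∈ el.mergeBundle v) (he' : e ∈ el.mergeBundle w) : v = w := by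
  have key : ∀ v w : V, v ≠ v₀ → w ≠ v₀ → el.rk v < el.rk w → e ∈ el.mergeBundle v →
      e ∈ el.mergeBundle w → False := by
    intro v w hv hw hlt he he'
    have h : el.head (el.rk v + 1) (el.lo e) = el.head (el.rk v + 1) (el.hi e) := by
      have hp : el.head (el.rk v + 1) (el.par v) = el.par v := el.head_fix (el.up_rk _ _ (R.par_up hv))
      rcases R.mem_mergeBundle he with ⟨h1, h2⟩ | ⟨h1, h2⟩
      · rw [el.head_succ_eq h1, el.head_succ_ne, h2]
        rw [h2]; have := el.up_rk _ _ (R.par_up hv); omega
      · rw [el.head_succ_eq h2, el.head_succ_ne, h1]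
        rw [h1]; have := el.up_rk _ _ (R.par_up hv); omega
    have h' := el.head_eq_mono (Nat.succ_le_of_lt hlt) h
    rcases R.mem_mergeBundle he' with ⟨h1, h2⟩ | ⟨h1, h2⟩ <;> rw [h1, h2] at h'
    · exact R.par_ne hw h'.symm
    · exact R.par_ne hw h'
  rcases lt_trichotomy (el.rk v) (el.rk w) with h | h | h
  · exact (key v w hv hw h he he').elim
  · exact el.rk_inj h
  · exact (key w v hw hv h he' he).elim

theorem Rooted.spanningTree [Fintype V] [DecidableEq V] [DecidableEq E] (f : V → E)
    (hf : ∀ v, v ≠ v₀ → f v ∈ el.mergeBundle v) :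
    IsSpanningTree ends ((Finset.univ.erase v₀).image f) := by
  classical
  set T := (Finset.univ.erase v₀).image f with hT
  have hinj : Set.InjOn f ↑(Finset.univ.erase v₀) := by
    intro v hv w hw hvw
    simp only [Finset.coe_erase, Finset.coe_univ, Set.mem_sdiff, Set.mem_univ,
      Set.mem_singleton_iff, true_and] at hv hw
    exact R.mergeBundle_disjoint hv hw (hf v hv) (hvw ▸ hf w hw)
  have hcard : T.card + 1 = Fintype.card V := by
    rw [hT, Finset.card_image_of_injOn hinj, Finset.card_erase_add_one (Finset.mem_univ _),
      Finset.card_univ]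
  refine ⟨hcard, ?_⟩
  set G := SimpleGraph.fromEdgeSet ((fun e => s((ends e).1, (ends e).2)) '' (T : Set E)) with hG
  have hedge : ∀ e ∈ T, (ends e).1 ≠ (ends e).2 := by
    intro e he h
    simp only [hT, Finset.mem_image, Finset.mem_erase, Finset.mem_univ, and_true] at he
    obtain ⟨v, hv, rfl⟩ := he
    have := hf v hv
    simp only [mergeBundle, bundle, Finset.mem_filter, Finset.mem_univ, true_and, h] at this
    rcases this with ⟨h1, h2⟩ | ⟨h1, h2⟩
    · exact R.par_ne hv (h2.symm.trans h1)
    · exact R.par_ne hv (h1.symm.trans h2)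
  have hreach : ∀ m ≤ el.rk v₀, ∀ x, G.Reachable x (el.head m x) := by
    intro m
    induction m with
    | zero => exact fun _ x => SimpleGraph.Reachable.refl _
    | succ m ih =>
      intro hm x
      have hx := ih (by omega) x
      by_cases hr : el.rk (el.head m x) = m
      · set v := el.head m x with hv'
        have hv : v ≠ v₀ := fun hh => by rw [hh] at hr; omega
        have hsucc : el.head (m + 1) x = el.par v := by
          rw [← hr]; exact el.head_succ_eq (by rw [hr])
        rw [hsucc]
        refine hx.trans ?_
        have heT : f v ∈ T := by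
          rw [hT]; exact Finset.mem_image_of_mem _ (by simp [hv])
        have hadj : G.Adj (ends (f v)).1 (ends (f v)).2 := by
          rw [hG, SimpleGraph.fromEdgeSet_adj]
          exact ⟨⟨f v, heT, rfl⟩, hedge _ heT⟩
        have hm' := ih (by omega)
        have := hf v hv
        simp only [mergeBundle, bundle, Finset.mem_filter, Finset.mem_univ, true_and, hr] at this
        rcases this with ⟨h1, h2⟩ | ⟨h1, h2⟩
        · have ha := hm' (ends (f v)).1
          have hb := hm' (ends (f v)).2
          rw [h1] at ha; rw [h2] at hb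
          exact ha.symm.trans (hadj.reachable.trans hb)
        · have ha := hm' (ends (f v)).1
          have hb := hm' (ends (f v)).2
          rw [h1] at ha; rw [h2] at hb
          exact hb.symm.trans (hadj.symm.reachable.trans ha)
      · rw [el.head_succ_ne hr]; exact hx
  have hconn : G.Connected := by
    have : Nonempty V := ⟨v₀⟩
    refine ⟨fun x y => ?_⟩
    have hx := hreach _ le_rfl x
    have hy := hreach _ le_rfl y
    rw [R.head_root] at hx hy
    exact hx.trans hy.symm
  rw [SimpleGraph.isTree_iff_connected_and_card]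
  refine ⟨hconn, ?_⟩
  have himg : G.edgeSet = (fun e => s((ends e).1, (ends e).2)) '' (T : Set E) := by
    rw [hG, SimpleGraph.edgeSet_fromEdgeSet, sdiff_eq_left, Set.disjoint_left]
    rintro _ ⟨e, he, rfl⟩ hd
    exact hedge e he (by simpa using hd)
  rw [himg, Nat.card_coe_set_eq, Set.ncard_image_of_injOn, Set.ncard_coe_finset,
    Nat.card_eq_fintype_card, hcard]
  intro e he e' he' heq
  simp only [hT, Finset.coe_image, Set.mem_image, Finset.mem_coe, Finset.mem_erase,
    Finset.mem_univ, and_true] at he he'
  obtain ⟨v, hv, rfl⟩ := he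
  obtain ⟨w, hw, rfl⟩ := he'
  have : f w ∈ el.mergeBundle v := by
    have := hf v hv
    simp only [mergeBundle, bundle, Finset.mem_filter, Finset.mem_univ, true_and] at this ⊢
    rcases Sym2.eq_iff.1 heq with ⟨h1, h2⟩ | ⟨h1, h2⟩ <;> rw [h1, h2] at this <;> tauto
  rw [R.mergeBundle_disjoint hv hw this (hf w hw)]

end Vale.Agent.P061.Treewidth.Elim
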