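import Mathlib

/-!
Two elementary lemmas: sparse directed graphs have large independent sets, and a pigeonhole
lemma producing a consistent triple.
-/

open Finset

namespace Vale.Agent.P061.Treewidth

/-- In a directed graph with out-degree at most `d`, a set of more than `2 * d * L` vertices
contains `L` pairwise nonadjacent ones. -/
theorem exists_indep {α : Type*} [DecidableEq α] (N : α → Finset α) (d : ℕ) :
    ∀ (L : ℕ) (s : Finset α), (∀ e ∈ s, e ∈ N e ∧ (N e).card ≤ d) → 2 * d * L < s.card →
      ∃ I ⊆ s, L ≤ I.card ∧ ∀ a ∈ I, ∀ b ∈ I, a ≠ b → b ∉ N a := by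
  intro L
  induction L with
  | zero => intro s _ _; exact ⟨∅, Finset.empty_subset s, le_rfl, by simp⟩
  | succ L ih =>
    intro s hs hcard
    have hne : s.Nonempty := Finset.card_pos.1 (by omega)
    obtain ⟨e, he, hdeg⟩ : ∃ e ∈ s, (s.filter fun f => e ∈ N f).card ≤ d := by
      by_contra hcon
      push Not at hcon
      have h1 : ∑ e ∈ s, (s.filter fun f => e ∈ N f).card =
          ∑ f ∈ s, (s.filter fun e => e ∈ N f).card := by
        simp only [Finset.card_filter]
        exact Finset.sum_comm
      have h2 : ∑ f ∈ s, (s.filter fun e => e ∈ N f).card ≤ s.card * d := by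
        rw [← smul_eq_mul]
        refine Finset.sum_le_card_nsmul _ _ _ fun f hf => (Finset.card_le_card ?_).trans (hs f hf).2
        intro x hx
        exact (Finset.mem_filter.1 hx).2
      have h3 : s.card * (d + 1) ≤ ∑ e ∈ s, (s.filter fun f => e ∈ N f).card := by
        rw [← smul_eq_mul]
        exact Finset.card_nsmul_le_sum _ _ _ fun x hx => hcon x hx
      have h4 : 0 < s.card := hne.card_pos
      rw [Nat.mul_succ] at h3
      omega
    set R := N e ∪ s.filter fun f => e ∈ N f with hR
    have hRcard : R.card ≤ 2 * d := by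
      have := Finset.card_union_le (N e) (s.filter fun f => e ∈ N f)
      have := (hs e he).2
      simp only [hR]
      omega
    have h5 : 2 * d * L < (s \ R).card := by
      have := Finset.le_card_sdiff R s
      rw [Nat.mul_succ] at hcard
      omega
    obtain ⟨I, hI, hIcard, hIind⟩ := ih _ (fun f hf => hs f (Finset.mem_sdiff.1 hf).1) h5
    have heI : e ∉ I := fun h =>
      (Finset.mem_sdiff.1 (hI h)).2 (Finset.mem_union_left _ (hs e he).1)
    refine ⟨insert e I, ?_, ?_, ?_⟩
    · exact Finset.insert_subset he (hI.trans Finset.sdiff_subset)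
    · rw [Finset.card_insert_of_notMem heI]
      omega
    · intro a ha b hb hab hmem
      rcases Finset.mem_insert.1 ha with rfl | ha'
      · rcases Finset.mem_insert.1 hb with rfl | hb'
        · exact hab rfl
        · exact (Finset.mem_sdiff.1 (hI hb')).2 (Finset.mem_union_left _ hmem)
      · rcases Finset.mem_insert.1 hb with rfl | hb'
        · have := Finset.mem_sdiff.1 (hI ha')
          exact this.2 (Finset.mem_union_right _ (Finset.mem_filter.2 ⟨this.1, hmem⟩))
        · exact hIind a ha' b hb' hab hmem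

/-- The size that forces a consistent triple. -/
def tripleBound (s : ℕ) : ℕ → ℕ
  | 0 => 2
  | r + 1 => s * tripleBound s r + 1

theorem two_le_tripleBound {s : ℕ} (hs : 1 ≤ s) : ∀ r, 2 ≤ tripleBound s r
  | 0 => le_rfl
  | r + 1 => by
    have := two_le_tripleBound hs r
    have := Nat.le_mul_of_pos_left (tripleBound s r) hs
    rw [tripleBound]
    omega

/-- If every member assigns each other member one of at most `s` values, a large enough set has
three members `i`, `p`, `j` with `p` agreeing with `j` at `i` and with `i` at `j`. -/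
theorem exists_triple {α β : Type*} [DecidableEq α] [DecidableEq β] {s : ℕ} (hs : 1 ≤ s)
    (K : α → Finset β) (f : α → α → β) :
    ∀ (r : ℕ) (M : Finset α) (X : α → Finset β), (∀ i ∈ M, (K i).card ≤ s) →
      (∀ i ∈ M, ∀ p ∈ M, p ≠ i → f p i ∈ K i \ X i) →
      (∀ i ∈ M, (K i \ X i).card ≤ r) → tripleBound s r ≤ M.card →
      ∃ i ∈ M, ∃ p ∈ M, ∃ j ∈ M, i ≠ p ∧ i ≠ j ∧ p ≠ j ∧ f p i = f j i ∧ f p j = f i j := by
  intro r
  induction r with
  | zero =>
    intro M X _ hf hK hM
    obtain ⟨i, hi, p, hp, hne⟩ := Finset.one_lt_card.1 (show 1 < M.card from hM)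
    have h0 := Finset.card_eq_zero.1 (Nat.le_zero.1 (hK i hi))
    have := hf i hi p hp hne.symm
    rw [h0] at this
    simp at this
  | succ r ih =>
    intro M X hcard hf hK hM
    have h2 := two_le_tripleBound hs r
    rw [tripleBound] at hM
    obtain ⟨j, hj⟩ : M.Nonempty := Finset.card_pos.1 (by omega)
    have hpos : 2 ≤ s * tripleBound s r :=
      h2.trans (Nat.le_mul_of_pos_left _ hs)
    have hmaps : ∀ p ∈ M.erase j, f p j ∈ K j := fun p hp =>
      (Finset.mem_sdiff.1 (hf j hj p (Finset.mem_erase.1 hp).2 (Finset.mem_erase.1 hp).1)).1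
    have hle : (K j).card • tripleBound s r ≤ (M.erase j).card := by
      rw [smul_eq_mul, Finset.card_erase_of_mem hj]
      have := Nat.mul_le_mul_right (tripleBound s r) (hcard j hj)
      omega
    have hKne : (K j).Nonempty := by
      obtain ⟨p, hp⟩ : (M.erase j).Nonempty :=
        Finset.card_pos.1 (by rw [Finset.card_erase_of_mem hj]; omega)
      exact ⟨_, hmaps p hp⟩
    obtain ⟨y, -, hy⟩ :=
      Finset.exists_le_card_fiber_of_nsmul_le_card_of_maps_to hmaps hKne hle
    set M' := (M.erase j).filter fun p => f p j = y with hM'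
    have hsub : ∀ p ∈ M', p ∈ M ∧ p ≠ j ∧ f p j = y := fun p hp => by
      simp only [hM', Finset.mem_filter, Finset.mem_erase] at hp
      exact ⟨hp.1.2, hp.1.1, hp.2⟩
    by_cases hfound : ∃ i ∈ M', ∃ p ∈ M', p ≠ i ∧ f p i = f j i
    · obtain ⟨i, hi, p, hp, hpi, hfp⟩ := hfound
      obtain ⟨hiM, hij, hiy⟩ := hsub i hi
      obtain ⟨hpM, hpj, hpy⟩ := hsub p hp
      exact ⟨i, hiM, p, hpM, j, hj, hpi.symm, hij, hpj, hfp, hpy.trans hiy.symm⟩
    · push Not at hfound
      have hnew : ∀ i ∈ M', ∀ p ∈ M', p ≠ i → f p i ∈ K i \ insert (f j i) (X i) := by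
        intro i hi p hp hpi
        have h := Finset.mem_sdiff.1 (hf i (hsub i hi).1 p (hsub p hp).1 hpi)
        refine Finset.mem_sdiff.2 ⟨h.1, ?_⟩
        rw [Finset.mem_insert, not_or]
        exact ⟨hfound i hi p hp hpi, h.2⟩
      have hdec : ∀ i ∈ M', (K i \ insert (f j i) (X i)).card ≤ r := by
        intro i hi
        have h := hf i (hsub i hi).1 j hj (hsub i hi).2.1.symm
        rw [Finset.sdiff_insert, Finset.card_erase_of_mem h]
        have := hK i (hsub i hi).1
        omega
      obtain ⟨i, hi, p, hp, q, hq, h⟩ :=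
        ih M' _ (fun i hi => hcard i (hsub i hi).1) hnew hdec hy
      exact ⟨i, (hsub i hi).1, p, (hsub p hp).1, q, (hsub q hq).1, h⟩

end Vale.Agent.P061.Treewidth
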