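import Vale.Agent.P061.Treewidth.Bands
import Vale.Agent.P061.Treewidth.Pigeon

/-!
In every bundle some edge has no small-band witness lacking an alternative colouring.
-/

open Finset

namespace Vale.Agent.P061.Treewidth.Elim

/-- The number of traces on a closed upper neighbourhood. -/
def traces (t : ℕ) : ℕ := 2 ^ (t + 1)

/-- The number of independent witnesses that cannot all lack an alternative. -/
def indepBound (t : ℕ) : ℕ := tripleBound (traces t) (traces t)

/-- The threshold for a small cut is `k / ratio t`. -/
def ratio (t : ℕ) : ℕ := 8 * traces t * indepBound t * t + 16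

theorem traces_pos (t : ℕ) : 1 ≤ traces t := Nat.one_le_pow _ _ Nat.two_pos

theorem le_ratio (t : ℕ) : t ≤ ratio t := by
  have h1 := traces_pos t
  have h2 := two_le_tripleBound h1 (traces t)
  have h3 : 0 < 8 * traces t * indepBound t := by
    unfold indepBound
    exact Nat.mul_pos (by omega) (by omega)
  have := Nat.le_mul_of_pos_left t h3
  unfold ratio
  omega

variable {V E : Type} {ends : E → V × V} {t : ℕ} [Fintype E] [DecidableEq V] (el : Elim ends t)

/-- The vertices of the closed upper neighbourhood of `v` coloured true. -/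
def trace (χ : V → Bool) (v : V) : Finset V := (el.closedUp v).filter fun x => χ x = true

theorem trace_eq_iff {χ ψ : V → Bool} {v : V} :
    el.trace χ v = el.trace ψ v ↔ ∀ x ∈ el.closedUp v, χ x = ψ x := by
  simp only [trace, Finset.ext_iff, Finset.mem_filter]
  refine forall_congr' fun x => ?_
  by_cases hx : x ∈ el.closedUp v <;> cases χ x <;> cases ψ x <;> simp [hx]

/-- A colouring with the given trace, a small cut in the band and no crossing at `e`. -/
def Alt (k : ℕ) (v : V) (σ : Finset V) (ob : Option V) (e : E) : Prop :=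
  ∃ ψ : V → Bool, el.trace ψ v = σ ∧ ratio t * el.cutIn ψ (el.band v ob) < 3 * k ∧
    ¬ el.Crosses ψ e

/-- A witness against choosing `e`: a crossing colouring with small band cut, fixed on the side
`des`, for which no alternative exists. -/
def Witness (k : ℕ) (v c : V) (des : E → V) (σ : Finset V) (e : E) : Prop :=
  ∃ (ob : Option V) (χ : V → Bool), (∀ b, ob = some b → ¬ el.Below v b) ∧
    (∀ f ∈ el.mergeBundle v, el.lo f ∉ el.hole ob) ∧
    ratio t * el.cutIn χ (el.band v ob) < k ∧ el.trace χ v = σ ∧
    (∀ f ∈ el.mergeBundle v, χ (des f) = χ c) ∧ el.Crosses χ e ∧ ¬ el.Alt k v σ ob e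

/-- Majority of three colours. -/
def maj (a b c : Bool) : Bool := (a && b) || (a && c) || (b && c)

variable {el} {k : ℕ} {v₀ : V} (R : el.Rooted k v₀)
include R

open Classical in
theorem Rooted.card_witness_le {v c : V} (hc : c ∈ el.closedUp v) (des : E → V)
    (hdes : ∀ f, des f = el.lo f ∨ des f = el.hi f) (σ : Finset V) :
    ((el.mergeBundle v).filter fun e => el.Witness k v c des σ e).card
      ≤ 2 * ((k - 1) / ratio t) * indepBound t := by
  set bad := (el.mergeBundle v).filter fun e => el.Witness k v c des σ e with hbad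
  set d := (k - 1) / ratio t with hd
  by_contra hcon
  push Not at hcon
  have hne : bad.Nonempty := Finset.card_pos.1 (by omega)
  have : Nonempty E := ⟨hne.choose⟩
  have hw : ∀ e ∈ bad, el.Witness k v c des σ e := fun e he => (Finset.mem_filter.1 he).2
  choose! ob χ h1 h2 h3 h4 h5 h6 h7 using hw
  set N : E → Finset E := fun e => (el.mergeBundle v).filter fun f => el.Crosses (χ e) f with hN
  have hNsub : ∀ e ∈ bad, N e ⊆ el.crossIn (χ e) (el.band v (ob e)) := by
    intro e he f hf
    obtain ⟨hf, hf'⟩ := Finset.mem_filter.1 hf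
    exact el.mem_crossIn.2 ⟨⟨R.lo_desc hf, h2 e he f hf⟩, hf'⟩
  obtain ⟨I, hI, hIcard, hind⟩ := exists_indep N d (indepBound t) bad (fun e he => by
    refine ⟨Finset.mem_filter.2 ⟨(Finset.mem_filter.1 he).1, h6 e he⟩, ?_⟩
    refine (Finset.card_le_card (hNsub e he)).trans ?_
    have h := h3 e he
    rw [hd, Nat.le_div_iff_mul_le (by unfold ratio; omega)]
    change (el.crossIn (χ e) (el.band v (ob e))).card * ratio t ≤ k - 1
    rw [cutIn, Nat.mul_comm] at h
    omega) hcon
  have hbundle : ∀ e ∈ I, e ∈ el.mergeBundle v := fun e he => (Finset.mem_filter.1 (hI he)).1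
  have hnc : ∀ a ∈ I, ∀ b ∈ I, a ≠ b → ¬ el.Crosses (χ a) b := fun a ha b hb hab h =>
    hind a ha b hb hab (Finset.mem_filter.2 ⟨hbundle b hb, h⟩)
  -- the band of one witness never lies inside the band of another
  have hincl : ∀ a ∈ I, ∀ b ∈ I, a ≠ b → ¬ el.hole (ob b) ⊆ el.hole (ob a) := by
    intro a ha b hb hab hsub
    refine h7 a (hI ha) ⟨χ b, h4 b (hI hb), ?_, hnc b hb a ha hab.symm⟩
    have := el.cutIn_mono (χ b) (show el.band v (ob a) ⊆ el.band v (ob b) from
      Set.sdiff_subset_sdiff_right hsub)
    have h := h3 b (hI hb)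
    have := Nat.mul_le_mul_left (ratio t) this
    omega
  have hIge : 2 ≤ I.card := (two_le_tripleBound (traces_pos t) _).trans hIcard
  have hsome : ∀ a ∈ I, ∃ b, ob a = some b := by
    intro a ha
    obtain ⟨b, hb, hba⟩ := Finset.exists_mem_ne (show 1 < I.card from hIge) a
    cases h : ob a with
    | none => exact absurd (by rw [h]; exact Set.empty_subset _) (hincl b hb a ha hba)
    | some x => exact ⟨x, rfl⟩
  have : Nonempty V := ⟨v⟩
  choose! hb hob using hsome
  have hincomp : ∀ a ∈ I, ∀ b ∈ I, a ≠ b → ¬ el.Below (hb b) (hb a) := by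
    intro a ha b hb' hab h
    refine hincl a ha b hb' hab ?_
    rw [hob a ha, hob b hb']
    exact fun x hx => el.below_trans hx h
  obtain ⟨i, hi, p, hp, j, hj, hip, hij, hpj, hpi_eq, hpj_eq⟩ :=
    exists_triple (traces_pos t) (fun a => (el.closedUp (hb a)).powerset)
      (fun q a => el.trace (χ q) (hb a)) (traces t) I (fun _ => ∅)
      (fun a _ => by
        rw [Finset.card_powerset]
        exact Nat.pow_le_pow_right Nat.two_pos (el.closedUp_card _))
      (fun a _ q _ _ => by simp [trace, Finset.filter_subset])
      (fun a _ => by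
        rw [Finset.sdiff_empty, Finset.card_powerset]
        exact Nat.pow_le_pow_right Nat.two_pos (el.closedUp_card _))
      hIcard
  rw [el.trace_eq_iff] at hpi_eq hpj_eq
  set ψ : V → Bool := fun x =>
    if el.Below x (hb i) ∨ el.Below x (hb j) then χ p x else maj (χ i x) (χ p x) (χ j x) with hψ
  have hψin : ∀ x, el.Below x (hb i) ∨ el.Below x (hb j) ∨ x ∈ el.up (hb i) ∨
      x ∈ el.up (hb j) → ψ x = χ p x := by
    intro x hx
    by_cases h : el.Below x (hb i) ∨ el.Below x (hb j)
    · simp [hψ, h]
    · rcases hx with hx | hx | hx | hx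
      · exact absurd (Or.inl hx) h
      · exact absurd (Or.inr hx) h
      · have := hpi_eq x (by simp [closedUp, hx])
        simp only [hψ, if_neg h, maj]
        rw [← this]
        cases χ i x <;> cases χ p x <;> rfl
      · have := hpj_eq x (by simp [closedUp, hx])
        simp only [hψ, if_neg h, maj]
        rw [← this]
        cases χ j x <;> cases χ p x <;> rfl
  refine h7 p (hI hp) ⟨ψ, ?_, ?_, ?_⟩
  · rw [← h4 p (hI hp), el.trace_eq_iff]
    intro x hx
    have hx' : el.Below v x := by
      rcases el.mem_closedUp.1 hx with rfl | h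
      · exact el.below_refl _
      · exact el.below_up h
    have hn : ¬ (el.Below x (hb i) ∨ el.Below x (hb j)) := by
      rintro (h | h)
      · exact h1 i (hI hi) _ (hob i hi) (el.below_trans hx' h)
      · exact h1 j (hI hj) _ (hob j hj) (el.below_trans hx' h)
    have e1 := el.trace_eq_iff.1 ((h4 i (hI hi)).trans (h4 p (hI hp)).symm) x hx
    have e2 := el.trace_eq_iff.1 ((h4 j (hI hj)).trans (h4 p (hI hp)).symm) x hx
    simp only [hψ, if_neg hn, maj, e1, e2]
    cases χ p x <;> rfl
  · have hsub : el.crossIn ψ (el.band v (ob p)) ⊆ el.crossIn (χ p) (el.band v (ob p)) ∪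
        el.crossIn (χ i) (el.band v (ob i)) ∪ el.crossIn (χ j) (el.band v (ob j)) := by
      intro e he
      obtain ⟨hlo, hcr⟩ := el.mem_crossIn.1 he
      simp only [Finset.mem_union, mem_crossIn]
      by_cases h : el.Below (el.lo e) (hb i) ∨ el.Below (el.lo e) (hb j)
      · refine Or.inl (Or.inl ⟨hlo, ?_⟩)
        have e1 : ψ (el.lo e) = χ p (el.lo e) :=
          hψin _ (h.elim Or.inl fun h => Or.inr (Or.inl h))
        have e2 : ψ (el.hi e) = χ p (el.hi e) := by
          apply hψin
          rcases h with h | h <;> rcases el.hi_closedUp_or_below (v := _) h with h' | h'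
          · exact Or.inl h'
          · exact Or.inr (Or.inr (Or.inl h'))
          · exact Or.inr (Or.inl h')
          · exact Or.inr (Or.inr (Or.inr h'))
        simpa [Crosses, e1, e2] using hcr
      · have hhi : ¬ (el.Below (el.hi e) (hb i) ∨ el.Below (el.hi e) (hb j)) := fun hh =>
          h (hh.imp (el.below_trans (el.below_up (el.hi_up e)))
            (el.below_trans (el.below_up (el.hi_up e))))
        have hbi : el.lo e ∈ el.band v (ob i) :=
          ⟨hlo.1, by rw [hob i hi]; exact fun hh => h (Or.inl hh)⟩
        have hbj : el.lo e ∈ el.band v (ob j) :=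
          ⟨hlo.1, by rw [hob j hj]; exact fun hh => h (Or.inr hh)⟩
        simp only [Crosses, hψ, if_neg h, if_neg hhi] at hcr ⊢
        by_contra hcon'
        simp only [not_or, not_and, not_not] at hcon'
        rw [hcon'.1.1 hlo, hcon'.1.2 hbi, hcon'.2 hbj] at hcr
        exact hcr rfl
    have := (Finset.card_le_card hsub).trans
      ((Finset.card_union_le _ _).trans (Nat.add_le_add_right (Finset.card_union_le _ _) _))
    have := Nat.mul_le_mul_left (ratio t) this
    have a1 := h3 p (hI hp)
    have a2 := h3 i (hI hi)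
    have a3 := h3 j (hI hj)
    simp only [cutIn, Nat.mul_add] at *
    omega
  · have hlo : ¬ (el.Below (el.lo p) (hb i) ∨ el.Below (el.lo p) (hb j)) := by
      rintro (h | h)
      · exact h2 i (hI hi) p (hbundle p hp) (by rw [hob i hi]; exact h)
      · exact h2 j (hI hj) p (hbundle p hp) (by rw [hob j hj]; exact h)
    have hhi : ¬ (el.Below (el.hi p) (hb i) ∨ el.Below (el.hi p) (hb j)) := fun hh =>
      hlo (hh.imp (el.below_trans (el.below_up (el.hi_up p)))
        (el.below_trans (el.below_up (el.hi_up p))))
    have ei : χ i (el.lo p) = χ i (el.hi p) := not_not.1 (hnc i hi p hp hip)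
    have ej : χ j (el.lo p) = χ j (el.hi p) := not_not.1 (hnc j hj p hp hpj.symm)
    have ec : χ i c = χ j c := el.trace_eq_iff.1 ((h4 i (hI hi)).trans (h4 j (hI hj)).symm) c hc
    have di := h5 i (hI hi) p (hbundle p hp)
    have dj := h5 j (hI hj) p (hbundle p hp)
    have : χ i (el.lo p) = χ j (el.lo p) := by
      rcases hdes p with h | h <;> rw [h] at di dj
      · rw [di, dj, ec]
      · rw [ei, ej, di, dj, ec]
    simp only [Crosses, hψ, if_neg hlo, if_neg hhi, maj, ← ei, ← ej, this, not_not]
    cases χ j (el.lo p) <;> cases χ p (el.lo p) <;> cases χ p (el.hi p) <;> rfl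

open Classical in
/-- The end of a bundle edge on the side of the class headed by `c`. -/
noncomputable def sideEnd (el : Elim ends t) (v c : V) (f : E) : V :=
  if el.head (el.rk v) (el.lo f) = c then el.lo f else el.hi f

omit R in
theorem sideEnd_cases (v c : V) (f : E) :
    sideEnd el v c f = el.lo f ∨ sideEnd el v c f = el.hi f := by
  unfold sideEnd
  split <;> simp

/-- Some bundle edge has no witness on either side for any trace. -/
theorem Rooted.exists_good {v : V} (hv : v ≠ v₀) :
    ∃ e ∈ el.mergeBundle v, ∀ c, (c = v ∨ c = el.par v) →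
      ∀ χ : V → Bool, ¬ el.Witness k v c (sideEnd el v c) (el.trace χ v) e := by
  classical
  by_contra hcon
  push Not at hcon
  set d := (k - 1) / ratio t with hd
  set side : Finset V := {v, el.par v} with hside
  set big := (side ×ˢ (el.closedUp v).powerset).biUnion fun q =>
    (el.mergeBundle v).filter fun e => el.Witness k v q.1 (sideEnd el v q.1) q.2 e with hbig
  have hsub : el.mergeBundle v ⊆ big := by
    intro e he
    obtain ⟨c, hc, χ, hχ⟩ := hcon e he
    simp only [hbig, Finset.mem_biUnion, Finset.mem_product, Finset.mem_filter, Finset.mem_powerset]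
    exact ⟨(c, el.trace χ v), ⟨by simp [hside, hc], Finset.filter_subset _ _⟩, he, hχ⟩
  have h1 : big.card ≤ 2 * traces t * (2 * d * indepBound t) := by
    refine Finset.card_biUnion_le.trans ?_
    refine (Finset.sum_le_card_nsmul _ _ _ fun q hq => R.card_witness_le ?_ _
      (sideEnd_cases v q.1) q.2).trans ?_
    · have := (Finset.mem_product.1 hq).1
      simp only [hside, Finset.mem_insert, Finset.mem_singleton] at this
      rw [el.mem_closedUp]
      rcases this with h | h
      · exact Or.inl h
      · rw [h]; exact Or.inr (R.par_up hv)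
    · rw [smul_eq_mul, Finset.card_product, Finset.card_powerset]
      exact Nat.mul_le_mul_right _ (Nat.mul_le_mul Finset.card_le_two
        (Nat.pow_le_pow_right Nat.two_pos (el.closedUp_card v)))
  have h2 := R.card_mergeBundle hv
  have h3 := Nat.mul_le_mul_left t ((Finset.card_le_card hsub).trans h1)
  have h4 : ratio t * d ≤ k - 1 := by rw [hd]; exact Nat.mul_div_le _ _
  have h5 : t * (2 * traces t * (2 * d * indepBound t)) ≤ ratio t * d := by
    have : t * (2 * traces t * (2 * d * indepBound t)) =
        (4 * traces t * indepBound t * t) * d := by ring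
    rw [this]
    refine Nat.mul_le_mul_right _ ?_
    unfold ratio
    have : 8 * traces t * indepBound t * t = 2 * (4 * traces t * indepBound t * t) := by ring
    omega
  have := R.one_le
  omega

end Vale.Agent.P061.Treewidth.Elim
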